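import Vale.Agent.P361.Spin

/-!
The double commutator with a plane wave of magnons, and the resulting finite-volume bound on the
magnetization.
-/

open Matrix Finset
open scoped ComplexConjugate

namespace Vale.Agent.P361

variable {n N : ℕ}

/-- The commutator of two matrices. -/
def cm {ι : Type*} [Fintype ι] (X Y : Matrix ι ι ℂ) : Matrix ι ι ℂ := X * Y - Y * X

section cm

variable {ι : Type*} [Fintype ι]

theorem cm_mul_right (X Y Z : Matrix ι ι ℂ) : cm X (Y * Z) = cm X Y * Z + Y * cm X Z := by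
  simp only [cm, sub_mul, mul_sub, mul_assoc]; abel

theorem cm_mul_left (X Y Z : Matrix ι ι ℂ) : cm (X * Y) Z = X * cm Y Z + cm X Z * Y := by
  simp only [cm, sub_mul, mul_sub, mul_assoc]; abel

theorem cm_add_right (X Y Z : Matrix ι ι ℂ) : cm X (Y + Z) = cm X Y + cm X Z := by
  simp only [cm, add_mul, mul_add]; abel

theorem cm_add_left (X Y Z : Matrix ι ι ℂ) : cm (X + Y) Z = cm X Z + cm Y Z := by
  simp only [cm, add_mul, mul_add]; abel

theorem cm_sub_right (X Y Z : Matrix ι ι ℂ) : cm X (Y - Z) = cm X Y - cm X Z := by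
  simp only [cm, sub_mul, mul_sub]; abel

theorem cm_sub_left (X Y Z : Matrix ι ι ℂ) : cm (X - Y) Z = cm X Z - cm Y Z := by
  simp only [cm, sub_mul, mul_sub]; abel

theorem cm_smul_right (c : ℂ) (X Y : Matrix ι ι ℂ) : cm X (c • Y) = c • cm X Y := by
  simp only [cm, mul_smul_comm, smul_mul_assoc, smul_sub]

theorem cm_smul_left (c : ℂ) (X Y : Matrix ι ι ℂ) : cm (c • X) Y = c • cm X Y := by
  simp only [cm, mul_smul_comm, smul_mul_assoc, smul_sub]

theorem cm_sum_right {α : Type*} (s : Finset α) (X : Matrix ι ι ℂ) (Y : α → Matrix ι ι ℂ) :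
    cm X (∑ a ∈ s, Y a) = ∑ a ∈ s, cm X (Y a) := by
  simp only [cm, Matrix.mul_sum, Matrix.sum_mul, Finset.sum_sub_distrib]

theorem cm_sum_left {α : Type*} (s : Finset α) (X : α → Matrix ι ι ℂ) (Y : Matrix ι ι ℂ) :
    cm (∑ a ∈ s, X a) Y = ∑ a ∈ s, cm (X a) Y := by
  simp only [cm, Matrix.mul_sum, Matrix.sum_mul, Finset.sum_sub_distrib]

theorem cm_zero_right (X : Matrix ι ι ℂ) : cm X 0 = 0 := by simp [cm]

theorem cm_zero_left (X : Matrix ι ι ℂ) : cm 0 X = 0 := by simp [cm]

theorem cm_neg_left (X Y : Matrix ι ι ℂ) : cm (-X) Y = -cm X Y := by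
  simp only [cm, neg_mul, mul_neg]; abel

end cm

/-- A one-magnon creation operator with amplitudes `c`. -/
noncomputable def wave (n : ℕ) {N : ℕ} (c : Site N → ℂ) : Op n N :=
  ∑ x, c x • atSite x (lowerMat n)

theorem wave_conjTranspose (c : Site N → ℂ) :
    (wave n c)ᴴ = ∑ x, conj (c x) • atSite x (raiseMat n) := by
  simp only [wave, conjTranspose_sum, conjTranspose_smul, atSite_conjTranspose,
    lowerMat_conjTranspose]
  rfl

theorem cm_atSite_wave (c : Site N → ℂ) (W : Matrix (Fin (n + 1)) (Fin (n + 1)) ℂ) (x : Site N)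
    (U : Matrix (Fin (n + 1)) (Fin (n + 1)) ℂ) :
    cm (atSite x U) (∑ z, c z • atSite z W) = c x • atSite x (U * W - W * U) := by
  rw [cm_sum_right, Fintype.sum_eq_single x]
  · rw [cm_smul_right, cm, atSite_mul, atSite_mul, ← atSite_sub]
  · intro z hz
    rw [cm_smul_right, cm, atSite_comm hz.symm, sub_self, smul_zero]

theorem cm_wave_atSite (c : Site N → ℂ) (W : Matrix (Fin (n + 1)) (Fin (n + 1)) ℂ) (x : Site N)
    (U : Matrix (Fin (n + 1)) (Fin (n + 1)) ℂ) :
    cm (∑ z, c z • atSite z W) (atSite x U) = c x • atSite x (W * U - U * W) := by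
  rw [cm_sum_left, Fintype.sum_eq_single x]
  · rw [cm_smul_left, cm, atSite_mul, atSite_mul, ← atSite_sub]
  · intro z hz
    rw [cm_smul_left, cm, atSite_comm hz, sub_self, smul_zero]

theorem cm_waveH_spinDot (c : Site N → ℂ) (x y : Site N) :
    cm (wave n c)ᴴ (spinDot n x y) = (conj (c x) - conj (c y)) •
      (atSite x (spin3 n) * atSite y (raiseMat n) - atSite x (raiseMat n) * atSite y (spin3 n)) := by
  have hz := raise_spin3_comm n
  have hm := raise_lower_comm n
  rw [spinDot_eq, wave_conjTranspose]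
  simp only [cm_add_right, cm_mul_right, cm_smul_right, cm_wave_atSite, hz, hm, sub_self,
    atSite_neg, atSite_smul, show atSite (n := n) x 0 = 0 by ext; simp [atSite_apply],
    show atSite (n := n) y 0 = 0 by ext; simp [atSite_apply],
    smul_mul_assoc, mul_smul_comm, smul_zero, zero_mul, mul_zero, zero_add, add_zero,
    smul_smul, neg_mul, mul_neg, smul_neg]
  module

theorem double_cm_spinDot (c : Site N → ℂ) (x y : Site N) :
    cm (cm (wave n c)ᴴ (spinDot n x y)) (wave n c) = (conj (c x) - conj (c y)) •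
      (-((2 : ℂ) * (c x - c y)) • (atSite x (spin3 n) * atSite y (spin3 n))
        - c x • (atSite x (lowerMat n) * atSite y (raiseMat n))
        + c y • (atSite x (raiseMat n) * atSite y (lowerMat n))) := by
  have hz : spin3 n * lowerMat n - lowerMat n * spin3 n = -lowerMat n := by
    rw [← neg_sub, lower_spin3_comm]
  have hp := raise_lower_comm n
  rw [cm_waveH_spinDot, cm_smul_left]
  congr 1
  simp only [wave, cm_sub_left, cm_mul_left, cm_atSite_wave, hz, hp, atSite_neg, atSite_smul,
    smul_mul_assoc, mul_smul_comm, smul_smul, neg_mul, mul_neg, smul_neg]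
  module

theorem cm_waveH_magnetization (c : Site N → ℂ) :
    cm (wave n c)ᴴ (magnetization n N) = -(wave n c)ᴴ := by
  rw [wave_conjTranspose, magnetization, cm_sum_right]
  simp only [cm_wave_atSite, raise_spin3_comm, atSite_neg, smul_neg, Finset.sum_neg_distrib]

theorem waveH_comm_wave (c : Site N → ℂ) (hc : ∀ x, conj (c x) * c x = 1) :
    cm (wave n c)ᴴ (wave n c) = (2 : ℂ) • magnetization n N := by
  rw [wave_conjTranspose, magnetization, wave, Finset.smul_sum, cm_sum_right]
  refine Finset.sum_congr rfl fun x _ => ?_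
  rw [cm_smul_right, cm_wave_atSite, raise_lower_comm, atSite_smul, smul_smul, smul_smul,
    mul_comm (c x), hc, one_mul]

/-- The matrix whose exponential gives the Gibbs state. -/
noncomputable def gibbsMat (n N : ℕ) (β h : ℝ) : Op n N :=
  (β : ℂ) • (hamiltonian n N - (h : ℂ) • magnetization n N)

theorem gibbsMat_transpose (β h : ℝ) : (gibbsMat n N β h)ᵀ = gibbsMat n N β h := by
  simp only [gibbsMat, transpose_smul, transpose_sub, hamiltonian_transpose,
    magnetization_transpose]

theorem gibbsMat_isHermitian (β h : ℝ) : (gibbsMat n N β h).IsHermitian := by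
  unfold Matrix.IsHermitian gibbsMat
  simp only [conjTranspose_smul, conjTranspose_sub, hamiltonian_conjTranspose,
    magnetization_conjTranspose, Complex.star_def, Complex.conj_ofReal]

theorem card_site_pos : 0 < Fintype.card (Site N) := Fintype.card_pos

theorem avg_double_cm_spinDot {K : Op n N} (hK : K.IsHermitian) (hT : Kᵀ = K) (c : Site N → ℂ)
    {x y : Site N} (hxy : x ≠ y) :
    -(4 * ((n : ℝ) / 2) ^ 2 / 2) * Complex.normSq (c x - c y) ≤
      avg K (cm (cm (wave n c)ᴴ (spinDot n x y)) (wave n c)) := by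
  set u := avgC K (atSite x (spin3 n) * atSite y (spin3 n)) with hu
  set q := avgC K (atSite x (raiseMat n) * atSite y (lowerMat n)) with hq
  have hq' : avgC K (atSite x (lowerMat n) * atSite y (raiseMat n)) = q := by
    rw [hq, ← avgC_transpose hT, transpose_mul, atSite_transpose, atSite_transpose,
      transpose_transpose, atSite_comm hxy.symm]
  have hs : avg K (spinDot n x y) = u.re + q.re := by
    rw [avg, spinDot_eq, avgC_add, avgC_smul, avgC_add, hq', ← hu, ← hq]
    simp
    ring
  have hv : avgC K (cm (cm (wave n c)ᴴ (spinDot n x y)) (wave n c))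
      = -((Complex.normSq (c x - c y) : ℂ) * (2 * u + q)) := by
    rw [double_cm_spinDot, avgC_smul, avgC_add, avgC_sub, avgC_smul, avgC_smul, avgC_smul, hq',
      ← hu, ← hq, Complex.normSq_eq_conj_mul_self, map_sub]
    ring
  have h1 : avg K (atSite x (spin3 n) * atSite y (spin3 n)) ≤ ((n : ℝ) / 2) ^ 2 :=
    avg_le_of_qf hK fun v => qf_spin3_spin3_le v
  have h2 : avg K (spinDot n x y) ≤ ((n : ℝ) / 2) ^ 2 :=
    avg_le_of_qf hK fun v => qf_spinDot_le hxy v
  have h3 : avg K (atSite x (spin3 n) * atSite y (spin3 n)) = u.re := rfl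
  rw [hs] at h2
  rw [h3] at h1
  rw [avg, hv, Complex.neg_re, Complex.re_ofReal_mul]
  simp only [Complex.add_re, Complex.mul_re, Complex.re_ofNat, Complex.im_ofNat, zero_mul,
    sub_zero]
  nlinarith [Complex.normSq_nonneg (c x - c y)]

theorem avg_double_cm_hamiltonian {K : Op n N} (hK : K.IsHermitian) (hT : Kᵀ = K)
    (c : Site N → ℂ) :
    avg K (cm (cm (wave n c)ᴴ (hamiltonian n N)) (wave n c)) ≤
      ((n : ℝ) / 2) ^ 2 *
        ∑ x : Site N, ∑ y : Site N, if Adj x y then Complex.normSq (c x - c y) else 0 := by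
  have e : cm (cm (wave n c)ᴴ (hamiltonian n N)) (wave n c) = ((-(1 / 2) : ℝ) : ℂ) •
      ∑ x : Site N, ∑ y : Site N,
        if Adj x y then cm (cm (wave n c)ᴴ (spinDot n x y)) (wave n c) else 0 := by
    rw [hamiltonian, cm_smul_right, cm_smul_left]
    simp only [cm_sum_right, cm_sum_left, apply_ite (cm (wave n c)ᴴ), cm_zero_right,
      apply_ite (fun X => cm X (wave n c)), cm_zero_left]
    congr 1
    push_cast
    ring
  rw [e, avg_smul, avg_sum, Finset.mul_sum, Finset.mul_sum]
  refine Finset.sum_le_sum fun x _ => ?_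
  rw [avg_sum, Finset.mul_sum, Finset.mul_sum]
  refine Finset.sum_le_sum fun y _ => ?_
  split_ifs with h
  · have := avg_double_cm_spinDot hK hT c (adj_ne h)
    linarith
  · simp [avg, avgC_zero]

/-- The angle `2 pi a / (2N+1)`. -/
noncomputable def ang (N : ℕ) (a : Fin (2 * N + 1)) : ℝ :=
  2 * Real.pi * (a : ℕ) / (2 * N + 1 : ℕ)

/-- The plane wave with wave number `k`. -/
noncomputable def plane (k x : Site N) : ℂ :=
  Complex.exp (((∑ j, ang N (k j) * (x j : ℕ) : ℝ) : ℂ) * Complex.I)

theorem conj_plane_mul_plane (k x y : Site N) :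
    conj (plane k x) * plane k y =
      Complex.exp (((∑ j, ang N (k j) * (((y j : ℕ) : ℝ) - (x j : ℕ)) : ℝ) : ℂ) * Complex.I) := by
  rw [plane, plane, ← Complex.exp_conj, ← Complex.exp_add]
  simp only [map_mul, Complex.conj_I, Complex.conj_ofReal, mul_sub, Finset.sum_sub_distrib]
  push_cast
  ring_nf

theorem conj_plane_self (k x : Site N) : conj (plane k x) * plane k x = 1 := by
  rw [conj_plane_mul_plane]; simp

theorem sum_plane_mul (x y : Site N) :
    ∑ k : Site N, plane k x * conj (plane k y) =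
      if x = y then (Fintype.card (Site N) : ℂ) else 0 := by
  split_ifs with h
  · subst h
    simp [mul_comm (plane _ x), conj_plane_self, Fintype.card_pi]
  · obtain ⟨j, hj⟩ : ∃ j, x j ≠ y j := by
      by_contra! hc; exact h (funext hc)
    have key : ∀ k : Site N, plane k x * conj (plane k y) = ∏ i, Complex.exp
        (((ang N (k i) * (((x i : ℕ) : ℝ) - (y i : ℕ)) : ℝ) : ℂ) * Complex.I) := by
      intro k
      rw [mul_comm, conj_plane_mul_plane, ← Complex.exp_sum, Complex.ofReal_sum, Finset.sum_mul]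
    simp only [key]
    rw [← Fintype.prod_sum
      (fun i a => Complex.exp
        (((ang N a * (((x i : ℕ) : ℝ) - (y i : ℕ)) : ℝ) : ℂ) * Complex.I))]
    refine Finset.prod_eq_zero (Finset.mem_univ j) ?_
    set d : ℤ := ((x j : ℕ) : ℤ) - (y j : ℕ) with hd
    set z : ℂ := Complex.exp ((2 * Real.pi * Complex.I / (2 * N + 1 : ℕ)) * d) with hz
    have hpow : ∀ a : Fin (2 * N + 1), Complex.exp
        (((ang N a * (((x j : ℕ) : ℝ) - (y j : ℕ)) : ℝ) : ℂ) * Complex.I) = z ^ (a : ℕ) := by
      intro a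
      rw [hz, ← Complex.exp_nat_mul, hd, ang]
      push_cast
      congr 1
      ring
    simp only [hpow]
    have hroot : z ^ (2 * N + 1) = 1 := by
      rw [hz, ← Complex.exp_nat_mul, Complex.exp_eq_one_iff]
      refine ⟨d, ?_⟩
      have : ((2 * N + 1 : ℕ) : ℂ) ≠ 0 := by exact_mod_cast Nat.succ_ne_zero (2 * N)
      field_simp
    have hne : z ≠ 1 := by
      rw [hz, Ne, Complex.exp_eq_one_iff]
      rintro ⟨m, hm⟩
      have hL : ((2 * N + 1 : ℕ) : ℂ) ≠ 0 := by exact_mod_cast Nat.succ_ne_zero (2 * N)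
      have h2 : (d : ℂ) = m * (2 * N + 1 : ℕ) := by
        have hpi : (2 * (Real.pi : ℂ) * Complex.I) ≠ 0 := by simp [Real.pi_ne_zero]
        apply mul_left_cancel₀ hpi
        field_simp at hm ⊢
        exact hm
      have h3 : d = m * (2 * N + 1 : ℕ) := by exact_mod_cast h2
      have h4 := (x j).isLt
      have h5 := (y j).isLt
      have h6 : d ≠ 0 := by
        simp only [hd]; intro h0; exact hj (Fin.ext (by omega))
      rcases lt_trichotomy m 0 with hm0 | hm0 | hm0
      · have : m * (2 * N + 1 : ℕ) ≤ -1 * (2 * N + 1 : ℕ) :=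
          mul_le_mul_of_nonneg_right (by omega) (by positivity)
        omega
      · subst hm0; simp at h3; exact h6 h3
      · have : (1 : ℤ) * (2 * N + 1 : ℕ) ≤ m * (2 * N + 1 : ℕ) :=
          mul_le_mul_of_nonneg_right (by omega) (by positivity)
        omega
    rw [Fin.sum_univ_eq_sum_range (fun i => z ^ i), geom_sum_eq hne, hroot, sub_self, zero_div]

theorem normSq_plane_sub (k x y : Site N) :
    Complex.normSq (plane k x - plane k y) =
      2 * (1 - Real.cos (∑ j, ang N (k j) * (((y j : ℕ) : ℝ) - (x j : ℕ)))) := by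
  rw [Complex.normSq_sub]
  have h1 : ∀ z : Site N, Complex.normSq (plane k z) = 1 := fun z => by
    rw [Complex.normSq_eq_norm_sq, plane, Complex.norm_exp_ofReal_mul_I, one_pow]
  rw [h1, h1]
  have : plane k x * conj (plane k y) = conj (conj (plane k x) * plane k y) := by simp
  rw [this, Complex.conj_re, conj_plane_mul_plane, Complex.exp_ofReal_mul_I_re]
  ring

/-- The one-magnon dispersion, without the factor `2S`. -/
noncomputable def disp (k : Site N) : ℝ := ∑ j, (1 - Real.cos (ang N (k j)))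

theorem disp_nonneg (k : Site N) : 0 ≤ disp k :=
  Finset.sum_nonneg fun _ _ => sub_nonneg.mpr (Real.cos_le_one _)

theorem adj_sum_le (k x : Site N) :
    (∑ y : Site N, if Adj x y then Complex.normSq (plane k x - plane k y) else 0)
      ≤ 4 * disp k := by
  let f : Fin 3 → ℝ := fun j => 2 * (1 - Real.cos (ang N (k j)))
  have hf : ∀ j, 0 ≤ f j := fun j =>
    mul_nonneg zero_le_two (sub_nonneg.mpr (Real.cos_le_one _))
  let Q : Fin 3 → ℤ → Site N → Prop := fun j s y =>
    ((y j : ℕ) : ℤ) = (x j : ℕ) + s ∧ ∀ i, i ≠ j → y i = x i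
  classical
  have hterm : ∀ y : Site N, (if Adj x y then Complex.normSq (plane k x - plane k y) else 0) ≤
      ∑ j, ((if Q j 1 y then f j else 0) + (if Q j (-1) y then f j else 0)) := by
    intro y
    have hnn : ∀ j, 0 ≤ (if Q j 1 y then f j else 0) + (if Q j (-1) y then f j else 0) := fun j =>
      add_nonneg (by split_ifs <;> first | exact hf j | exact le_rfl)
        (by split_ifs <;> first | exact hf j | exact le_rfl)
    split_ifs with h
    swap
    · exact Finset.sum_nonneg fun j _ => hnn j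
    obtain ⟨j, hj⟩ : ∃ j, ((x j : ℕ) : ℤ) - (y j : ℕ) ≠ 0 := by
      by_contra! hc; simp [Adj, hc] at h
    have hsplit : |((x j : ℕ) : ℤ) - (y j : ℕ)| + ∑ i ∈ Finset.univ.erase j,
        |((x i : ℕ) : ℤ) - (y i : ℕ)| = 1 := by
      rw [Finset.add_sum_erase _ (fun i => |((x i : ℕ) : ℤ) - (y i : ℕ)|) (Finset.mem_univ j)]
      exact h
    have hrest0 : 0 ≤ ∑ i ∈ Finset.univ.erase j, |((x i : ℕ) : ℤ) - (y i : ℕ)| :=
      Finset.sum_nonneg fun i _ => abs_nonneg _
    have habs : 1 ≤ |((x j : ℕ) : ℤ) - (y j : ℕ)| := Int.one_le_abs hj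
    have hrest : ∀ i, i ≠ j → y i = x i := by
      intro i hi
      have h0 : (∑ i ∈ Finset.univ.erase j, |((x i : ℕ) : ℤ) - (y i : ℕ)|) = 0 := by omega
      have := (Finset.sum_eq_zero_iff_of_nonneg (fun i _ => abs_nonneg _)).1 h0 i (by simp [hi])
      rw [abs_eq_zero, sub_eq_zero] at this
      exact Fin.ext (by omega)
    have h1 : |((x j : ℕ) : ℤ) - (y j : ℕ)| = 1 := by omega
    have hcos : Complex.normSq (plane k x - plane k y) = f j := by
      rw [normSq_plane_sub, Finset.sum_eq_single j (fun i _ hi => by rw [hrest i hi]; simp)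
        (by simp)]
      simp only [f]
      rcases (abs_eq zero_le_one).1 h1 with e | e
      · have e' : ((x j : ℕ) : ℝ) - (y j : ℕ) = 1 := by exact_mod_cast e
        rw [show ((y j : ℕ) : ℝ) - (x j : ℕ) = -1 by linarith, mul_neg_one, Real.cos_neg]
      · have e' : ((x j : ℕ) : ℝ) - (y j : ℕ) = -1 := by exact_mod_cast e
        rw [show ((y j : ℕ) : ℝ) - (x j : ℕ) = 1 by linarith, mul_one]
    rw [hcos]
    refine le_trans ?_ (Finset.single_le_sum (fun j _ => hnn j) (Finset.mem_univ j))
    rcases (abs_eq zero_le_one).1 h1 with e | e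
    · have : Q j (-1) y := ⟨by omega, hrest⟩
      rw [if_pos this]
      have : 0 ≤ (if Q j 1 y then f j else 0) := by split_ifs <;> first | exact hf j | exact le_rfl
      linarith
    · have : Q j 1 y := ⟨by omega, hrest⟩
      rw [if_pos this]
      have : 0 ≤ (if Q j (-1) y then f j else 0) := by
        split_ifs <;> first | exact hf j | exact le_rfl
      linarith
  refine le_trans (Finset.sum_le_sum fun y _ => hterm y) ?_
  rw [Finset.sum_comm]
  have hone : ∀ j s, (∑ y : Site N, if Q j s y then f j else 0) ≤ f j := by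
    intro j s
    rw [← Finset.sum_filter, Finset.sum_const, nsmul_eq_mul]
    have : (Finset.univ.filter fun y => Q j s y).card ≤ 1 := by
      rw [Finset.card_le_one]
      intro a ha b hb
      simp only [Finset.mem_filter, Finset.mem_univ, true_and, Q] at ha hb
      funext i
      by_cases hi : i = j
      · subst hi; exact Fin.ext (by omega)
      · rw [ha.2 i hi, hb.2 i hi]
    calc _ ≤ (1 : ℝ) * f j := mul_le_mul_of_nonneg_right (by exact_mod_cast this) (hf j)
      _ = f j := one_mul _
  calc _ ≤ ∑ j, (f j + f j) := Finset.sum_le_sum fun j _ => by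
        rw [Finset.sum_add_distrib]; exact add_le_add (hone j 1) (hone j (-1))
    _ = _ := by
        simp only [f, disp, Finset.mul_sum]
        exact Finset.sum_congr rfl fun j _ => by ring

/-- The magnetization per site in finite volume. -/
noncomputable def magN (n N : ℕ) (β h : ℝ) : ℝ :=
  avg (gibbsMat n N β h) (magnetization n N) / Fintype.card (Site N)

theorem sum_wave_mul_le {K : Op n N} (hK : K.IsHermitian) :
    ∑ k : Site N, avg K (wave n (plane k) * (wave n (plane k))ᴴ) ≤
      (Fintype.card (Site N) : ℝ) * ((n : ℝ) *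
        ((n : ℝ) / 2 * Fintype.card (Site N) - avg K (magnetization n N))) := by
  have e : ∑ k : Site N, wave n (plane k) * (wave n (plane k))ᴴ =
      ((Fintype.card (Site N) : ℝ) : ℂ) • ∑ x : Site N, atSite x (lowerMat n * raiseMat n) := by
    simp only [wave_conjTranspose]
    simp only [wave, Matrix.sum_mul, Matrix.mul_sum, smul_mul_assoc,
      mul_smul_comm, Finset.smul_sum, smul_smul]
    rw [Finset.sum_comm]
    refine Finset.sum_congr rfl fun x _ => ?_
    rw [Finset.sum_comm]
    simp only [← Finset.sum_smul]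
    rw [Finset.sum_eq_single x]
    · rw [atSite_mul]
      congr 1
      simp only [mul_comm (conj _)]
      rw [sum_plane_mul, if_pos rfl]
      push_cast; rfl
    · intro z _ hz
      simp only [mul_comm (conj _)]
      rw [sum_plane_mul]
      simp [hz, Ne.symm hz]
    · simp
  rw [← avg_sum, e, avg_smul]
  refine mul_le_mul_of_nonneg_left ?_ (Nat.cast_nonneg _)
  have hle : avg K (∑ x : Site N, atSite x (lowerMat n * raiseMat n)) ≤
      ∑ _x : Site N, 0 + avg K (∑ x : Site N,
        ((n : ℝ) : ℂ) • ((((n : ℝ) / 2 : ℝ) : ℂ) • (1 : Op n N) - atSite x (spin3 n))) := by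
    simp only [Finset.sum_const_zero, zero_add, avg_sum]
    refine Finset.sum_le_sum fun x _ => avg_le_avg hK fun v => ?_
    have e1 : atSite x (lowerMat n * raiseMat n) = diagonal fun σ : Config n N =>
        ((((σ x : ℕ) : ℝ) * ((n : ℝ) + 1 - (σ x : ℕ)) : ℝ) : ℂ) := by
      rw [lower_mul_raise, atSite_diagonal]
      congr 1; funext σ; push_cast; rfl
    have e2 : ((n : ℝ) : ℂ) • ((((n : ℝ) / 2 : ℝ) : ℂ) • (1 : Op n N) - atSite x (spin3 n)) =
        diagonal fun σ : Config n N => (((n : ℝ) * (σ x : ℕ) : ℝ) : ℂ) := by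
      rw [spin3, atSite_diagonal, ← diagonal_one, ← diagonal_smul, diagonal_sub, ← diagonal_smul]
      congr 1; funext σ
      simp only [Pi.smul_apply, smul_eq_mul, mul_one]
      push_cast; ring
    rw [e1, e2, qf_diagonal, qf_diagonal]
    refine Finset.sum_le_sum fun σ _ => mul_le_mul_of_nonneg_right ?_ (Complex.normSq_nonneg _)
    rcases Nat.eq_zero_or_pos (σ x : ℕ) with h | h
    · simp [h]
    · have : (1 : ℝ) ≤ ((σ x : ℕ) : ℝ) := by exact_mod_cast h
      nlinarith
  refine le_trans hle (le_of_eq ?_)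
  simp only [Finset.sum_const_zero, zero_add, avg_sum, avg_smul, avg_sub, avg_one hK, mul_one,
    ← Finset.mul_sum, Finset.sum_sub_distrib, Finset.sum_const, Finset.card_univ, nsmul_eq_mul,
    magnetization]
  ring

/-- Roepstorff's bound for one plane wave. -/
theorem wave_lower {β h d : ℝ} (hβ : 0 < β) (hh : 0 < h) (hd : 0 < d) (k : Site N)
    (hm : (n : ℝ) / 2 * d * Fintype.card (Site N) ≤
      avg (gibbsMat n N β h) (magnetization n N)) :
    2 * avg (gibbsMat n N β h) (magnetization n N) /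
        (Real.exp (β * ((n : ℝ) / d * disp k + h)) - 1) ≤
      avg (gibbsMat n N β h) (wave n (plane k) * (wave n (plane k))ᴴ) := by
  set K := gibbsMat n N β h with hKdef
  have hK : K.IsHermitian := gibbsMat_isHermitian β h
  set A := wave n (plane k) with hA
  have hD : avg K (Aᴴ * A) - avg K (A * Aᴴ) = 2 * avg K (magnetization n N) := by
    rw [← avg_sub]
    have e := waveH_comm_wave (n := n) (plane k) (conj_plane_self k)
    rw [cm, ← hA] at e
    rw [e, show (2 : ℂ) = ((2 : ℝ) : ℂ) by push_cast; rfl, avg_smul]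
  have ht : 0 < β * ((n : ℝ) / d * disp k + h) :=
    mul_pos hβ (add_pos_of_nonneg_of_pos (mul_nonneg (by positivity) (disp_nonneg k)) hh)
  rw [← hD]
  refine roepstorff hK A ht ?_
  rw [hD]
  have e : (Aᴴ * K - K * Aᴴ) * A - A * (Aᴴ * K - K * Aᴴ) =
      (β : ℂ) • cm (cm Aᴴ (hamiltonian n N)) A +
        ((β * h * 2 : ℝ) : ℂ) • magnetization n N := by
    have e1 : (Aᴴ * K - K * Aᴴ) * A - A * (Aᴴ * K - K * Aᴴ) = cm (cm Aᴴ K) A := rfl
    rw [e1, hKdef, gibbsMat, cm_smul_right, cm_sub_right, cm_smul_right, hA,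
      cm_waveH_magnetization, cm_smul_left, cm_sub_left, cm_smul_left, cm_neg_left,
      waveH_comm_wave _ (conj_plane_self k)]
    push_cast
    module
  rw [e, avg_add, avg_smul, avg_smul]
  have h1 := avg_double_cm_hamiltonian hK (gibbsMat_transpose β h) (plane k)
  have h2 : (∑ x : Site N, ∑ y : Site N,
      if Adj x y then Complex.normSq (plane k x - plane k y) else 0)
        ≤ (Fintype.card (Site N) : ℝ) * (4 * disp k) := by
    refine le_trans (Finset.sum_le_sum fun x _ => adj_sum_le k x) (le_of_eq ?_)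
    simp [Finset.card_univ]
  have h3 : avg K (cm (cm Aᴴ (hamiltonian n N)) A) ≤
      2 * ((n : ℝ) / d * disp k) * avg K (magnetization n N) := by
    refine le_trans h1 (le_trans (mul_le_mul_of_nonneg_left h2 (sq_nonneg _)) ?_)
    refine le_trans (le_of_eq ?_) (mul_le_mul_of_nonneg_left hm
      (mul_nonneg zero_le_two (mul_nonneg (by positivity) (disp_nonneg k))))
    field_simp
    ring
  have h4 := mul_le_mul_of_nonneg_left h3 hβ.le
  linarith

/-- The finite-volume bound: the magnetization deficit is at least a Bose sum. -/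
theorem magN_le {β h d : ℝ} (hn : 1 ≤ n) (hβ : 0 < β) (hh : 0 < h) (hd : 0 < d)
    (hm : (n : ℝ) / 2 * d ≤ magN n N β h) :
    d * (∑ k : Site N, 1 / (Real.exp (β * ((n : ℝ) / d * disp k + h)) - 1)) /
        Fintype.card (Site N) ≤ (n : ℝ) / 2 - magN n N β h := by
  set V : ℝ := (Fintype.card (Site N) : ℝ) with hV
  have hV0 : 0 < V := by rw [hV]; exact_mod_cast card_site_pos (N := N)
  have hn0 : (0 : ℝ) < n := by exact_mod_cast hn
  set K := gibbsMat n N β h with hKdef
  set M := avg K (magnetization n N) with hM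
  have hMag : magN n N β h = M / V := rfl
  rw [hMag] at hm ⊢
  have hM1 : (n : ℝ) / 2 * d * V ≤ M := (le_div_iff₀ hV0).1 hm
  set B := ∑ k : Site N, 1 / (Real.exp (β * ((n : ℝ) / d * disp k + h)) - 1) with hB
  have hB0 : 0 ≤ B := Finset.sum_nonneg fun k _ => div_nonneg zero_le_one
    (sub_nonneg.mpr (Real.one_le_exp (mul_nonneg hβ.le
      (add_nonneg (mul_nonneg (by positivity) (disp_nonneg k)) hh.le))))
  have h1 : 2 * M * B ≤ V * ((n : ℝ) * ((n : ℝ) / 2 * V - M)) := by
    refine le_trans ?_ (sum_wave_mul_le (gibbsMat_isHermitian β h))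
    rw [hB, Finset.mul_sum]
    refine Finset.sum_le_sum fun k _ => ?_
    rw [mul_one_div]
    exact wave_lower hβ hh hd k hM1
  have h2 : (n : ℝ) * d * V * B ≤ V * ((n : ℝ) * ((n : ℝ) / 2 * V - M)) :=
    le_trans (mul_le_mul_of_nonneg_right (by linarith) hB0) h1
  rw [div_le_iff₀ hV0, sub_mul, div_mul_cancel₀ _ hV0.ne']
  have h3 : ((n : ℝ) * V) * (d * B) ≤ ((n : ℝ) * V) * ((n : ℝ) / 2 * V - M) := by linarith
  exact le_of_mul_le_mul_left h3 (mul_pos hn0 hV0)

end Vale.Agent.P361
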