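import Mathlib

/-!
Definitions for the three-dimensional spin-`n/2` Heisenberg ferromagnet on a cube with free
boundary conditions.
-/

open Matrix Finset

namespace Vale.Agent.P361

/-- The cube `{-N, ..., N}^3`, a point being recorded by its coordinates shifted by `N`. -/
abbrev Site (N : ℕ) := Fin 3 → Fin (2 * N + 1)

/-- Two sites are nearest neighbours if their `l^1` distance is `1`. -/
def Adj {N : ℕ} (x y : Site N) : Prop :=
  ∑ j, |((x j : ℕ) : ℤ) - ((y j : ℕ) : ℤ)| = 1

instance {N : ℕ} (x y : Site N) : Decidable (Adj x y) :=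
  inferInstanceAs (Decidable ((∑ j, |((x j : ℕ) : ℤ) - ((y j : ℕ) : ℤ)|) = 1))

/-- Basis labels of the Hilbert space of the cube: a choice of `a x ∈ {0, ..., n}` at each site,
the value `a` standing for the eigenvalue `n/2 - a` of the third spin component. -/
abbrev Config (n N : ℕ) := Site N → Fin (n + 1)

/-- Operators on the Hilbert space of the cube. -/
abbrev Op (n N : ℕ) := Matrix (Config n N) (Config n N) ℂ

/-- The raising matrix `S^1 + i S^2` of spin `n/2`. -/
noncomputable def raiseMat (n : ℕ) : Matrix (Fin (n + 1)) (Fin (n + 1)) ℂ :=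
  Matrix.of fun a b =>
    if (a : ℕ) + 1 = (b : ℕ) then ((Real.sqrt ((b : ℝ) * ((n : ℝ) + 1 - (b : ℝ))) : ℝ) : ℂ) else 0

/-- The spin matrix `S^1`. -/
noncomputable def spin1 (n : ℕ) : Matrix (Fin (n + 1)) (Fin (n + 1)) ℂ :=
  (1 / 2 : ℂ) • (raiseMat n + (raiseMat n)ᵀ)

/-- The spin matrix `S^2`. -/
noncomputable def spin2 (n : ℕ) : Matrix (Fin (n + 1)) (Fin (n + 1)) ℂ :=
  (-(Complex.I / 2)) • (raiseMat n - (raiseMat n)ᵀ)

/-- The spin matrix `S^3`. -/
noncomputable def spin3 (n : ℕ) : Matrix (Fin (n + 1)) (Fin (n + 1)) ℂ :=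
  Matrix.diagonal fun a => (((n : ℝ) / 2 - (a : ℕ) : ℝ) : ℂ)

/-- The operator acting as `M` at the site `x` and as the identity at all other sites. -/
def atSite {n N : ℕ} (x : Site N) (M : Matrix (Fin (n + 1)) (Fin (n + 1)) ℂ) : Op n N :=
  Matrix.of fun σ τ => if ∀ z, z ≠ x → σ z = τ z then M (σ x) (τ x) else 0

/-- The inner product of the spins at the sites `x` and `y`. -/
noncomputable def spinDot (n : ℕ) {N : ℕ} (x y : Site N) : Op n N :=
  atSite x (spin1 n) * atSite y (spin1 n) + atSite x (spin2 n) * atSite y (spin2 n) +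
    atSite x (spin3 n) * atSite y (spin3 n)

/-- The Hamiltonian: minus the sum over unordered nearest-neighbour pairs of the spin inner
products (the sum over ordered pairs counts each pair twice). -/
noncomputable def hamiltonian (n N : ℕ) : Op n N :=
  (-(1 / 2) : ℂ) • ∑ x : Site N, ∑ y : Site N, if Adj x y then spinDot n x y else 0

/-- The total third spin component. -/
noncomputable def magnetization (n N : ℕ) : Op n N :=
  ∑ x : Site N, atSite x (spin3 n)

/-- The finite-volume pressure. -/
noncomputable def pressureN (n N : ℕ) (β h : ℝ) : ℝ :=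
  Real.log (trace (NormedSpace.exp (-(β : ℂ) • (hamiltonian n N - (h : ℂ) • magnetization n N)))).re
    / (β * Fintype.card (Site N))

/-- The infinite-volume pressure (written as an upper limit, which is the limit when that exists). -/
noncomputable def pressure (n : ℕ) (β h : ℝ) : ℝ :=
  Filter.limsup (fun N => pressureN n N β h) Filter.atTop

/-- The spontaneous magnetization: the right derivative of the pressure at zero field. -/
noncomputable def spontMag (n : ℕ) (β : ℝ) : ℝ :=
  derivWithin (pressure n β) (Set.Ioi 0) 0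

end Vale.Agent.P361
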