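import Mathlib

/-!
Finite-dimensional Gibbs averages, the Peierls-Bogoliubov inequality and Roepstorff's sharpened
form of Bogoliubov's inequality.
-/

open Matrix Finset
open scoped ComplexConjugate

namespace Vale.Agent.P361

variable {ι : Type*} [Fintype ι] [DecidableEq ι]

/-- Partition function of a matrix `K` (to be read as `beta` times the energy). -/
noncomputable def partFn (K : Matrix ι ι ℂ) : ℝ := (trace (NormedSpace.exp (-K))).re

/-- Complex Gibbs average. -/
noncomputable def avgC (K X : Matrix ι ι ℂ) : ℂ :=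
  trace (NormedSpace.exp (-K) * X) / (partFn K : ℂ)

/-- Real part of the Gibbs average. -/
noncomputable def avg (K X : Matrix ι ι ℂ) : ℝ := (avgC K X).re

/-- The quadratic form of a matrix. -/
noncomputable def qf (X : Matrix ι ι ℂ) (v : ι → ℂ) : ℝ := (star v ⬝ᵥ (X *ᵥ v)).re

omit [DecidableEq ι] in
theorem qf_eq_sum (X : Matrix ι ι ℂ) (v : ι → ℂ) :
    qf X v = ∑ i, ∑ j, (star (v i) * X i j * v j).re := by
  simp only [qf, dotProduct, mulVec, Pi.star_apply, mul_sum, Complex.re_sum, mul_assoc]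

theorem avgC_add (K X Y : Matrix ι ι ℂ) : avgC K (X + Y) = avgC K X + avgC K Y := by
  simp only [avgC, mul_add, trace_add, add_div]

theorem avgC_smul (K X : Matrix ι ι ℂ) (a : ℂ) : avgC K (a • X) = a * avgC K X := by
  simp only [avgC, Matrix.mul_smul, trace_smul, smul_eq_mul, mul_div_assoc]

theorem avgC_zero (K : Matrix ι ι ℂ) : avgC K 0 = 0 := by simp [avgC]

theorem avgC_neg (K X : Matrix ι ι ℂ) : avgC K (-X) = -avgC K X := by
  simp only [avgC, mul_neg, trace_neg, neg_div]

theorem avgC_sub (K X Y : Matrix ι ι ℂ) : avgC K (X - Y) = avgC K X - avgC K Y := by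
  rw [sub_eq_add_neg, avgC_add, avgC_neg, sub_eq_add_neg]

theorem avgC_sum {α : Type*} (s : Finset α) (K : Matrix ι ι ℂ) (X : α → Matrix ι ι ℂ) :
    avgC K (∑ a ∈ s, X a) = ∑ a ∈ s, avgC K (X a) := by
  simp only [avgC, Matrix.mul_sum, trace_sum, Finset.sum_div]

theorem avg_sum {α : Type*} (s : Finset α) (K : Matrix ι ι ℂ) (X : α → Matrix ι ι ℂ) :
    avg K (∑ a ∈ s, X a) = ∑ a ∈ s, avg K (X a) := by
  simp only [avg, avgC_sum, Complex.re_sum]

theorem avg_add (K X Y : Matrix ι ι ℂ) : avg K (X + Y) = avg K X + avg K Y := by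
  simp [avg, avgC_add]

theorem avg_sub (K X Y : Matrix ι ι ℂ) : avg K (X - Y) = avg K X - avg K Y := by
  simp [avg, avgC_sub]

theorem avg_smul (K X : Matrix ι ι ℂ) (a : ℝ) : avg K ((a : ℂ) • X) = a * avg K X := by
  simp only [avg, avgC_smul, Complex.re_ofReal_mul]

theorem avgC_transpose {K : Matrix ι ι ℂ} (hT : Kᵀ = K) (X : Matrix ι ι ℂ) :
    avgC K Xᵀ = avgC K X := by
  have hE : (NormedSpace.exp (-K))ᵀ = NormedSpace.exp (-K) := by
    rw [← Matrix.exp_transpose, transpose_neg, hT]
  have : trace (NormedSpace.exp (-K) * Xᵀ) = trace (NormedSpace.exp (-K) * X) := by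
    calc trace (NormedSpace.exp (-K) * Xᵀ)
        = trace ((NormedSpace.exp (-K) * Xᵀ)ᵀ) := (trace_transpose _).symm
      _ = trace (X * NormedSpace.exp (-K)) := by rw [transpose_mul, transpose_transpose, hE]
      _ = trace (NormedSpace.exp (-K) * X) := trace_mul_comm _ _
  simp only [avgC, this]

section spectral

variable {K : Matrix ι ι ℂ} (hK : K.IsHermitian)

/-- `X` written in the eigenbasis of `K`. -/
noncomputable def rot (X : Matrix ι ι ℂ) : Matrix ι ι ℂ :=
  star (hK.eigenvectorUnitary : Matrix ι ι ℂ) * X * (hK.eigenvectorUnitary : Matrix ι ι ℂ)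

theorem U_mul_star : (hK.eigenvectorUnitary : Matrix ι ι ℂ) *
    star (hK.eigenvectorUnitary : Matrix ι ι ℂ) = 1 :=
  Unitary.coe_mul_star_self _

theorem star_mul_U : star (hK.eigenvectorUnitary : Matrix ι ι ℂ) *
    (hK.eigenvectorUnitary : Matrix ι ι ℂ) = 1 :=
  Unitary.coe_star_mul_self _

theorem rot_one : rot hK (1 : Matrix ι ι ℂ) = 1 := by
  simp [rot, star_mul_U hK]

theorem rot_self : rot hK K = diagonal (fun i => (hK.eigenvalues i : ℂ)) := by
  have h := hK.spectral_theorem
  rw [Unitary.conjStarAlgAut_apply] at h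
  have e : (RCLike.ofReal ∘ hK.eigenvalues : ι → ℂ) = fun i => (hK.eigenvalues i : ℂ) := rfl
  rw [e] at h
  calc rot hK K = star (hK.eigenvectorUnitary : Matrix ι ι ℂ) *
        ((hK.eigenvectorUnitary : Matrix ι ι ℂ) * diagonal (fun i => (hK.eigenvalues i : ℂ)) *
          star (hK.eigenvectorUnitary : Matrix ι ι ℂ)) *
        (hK.eigenvectorUnitary : Matrix ι ι ℂ) := by
          unfold rot
          exact congrArg (fun Y => star (hK.eigenvectorUnitary : Matrix ι ι ℂ) * Y *
            (hK.eigenvectorUnitary : Matrix ι ι ℂ)) h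
    _ = _ := by
      simp only [mul_assoc, star_mul_U hK, mul_one]
      rw [← mul_assoc, star_mul_U hK, one_mul]

theorem exp_neg_eq : NormedSpace.exp (-K) = (hK.eigenvectorUnitary : Matrix ι ι ℂ) *
    diagonal (fun i => (Real.exp (-(hK.eigenvalues i)) : ℂ)) *
      star (hK.eigenvectorUnitary : Matrix ι ι ℂ) := by
  set U : Matrix ι ι ℂ := (hK.eigenvectorUnitary : Matrix ι ι ℂ) with hU
  have hUU : U * star U = 1 := U_mul_star hK
  have h0 : -K = U * diagonal (fun i => ((-(hK.eigenvalues i) : ℝ) : ℂ)) * star U := by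
    have h := hK.spectral_theorem
    rw [Unitary.conjStarAlgAut_apply] at h
    have e : diagonal (fun i => ((-(hK.eigenvalues i) : ℝ) : ℂ))
        = -diagonal (RCLike.ofReal ∘ hK.eigenvalues : ι → ℂ) := by
      rw [diagonal_neg]
      congr 1
      funext i
      simp
    rw [e, mul_neg, neg_mul]
    exact congrArg Neg.neg h
  have hinv : U⁻¹ = star U := Matrix.inv_eq_right_inv hUU
  have hunit : IsUnit U := IsUnit.of_mul_eq_one _ hUU
  rw [h0, ← hinv, Matrix.exp_conj _ _ hunit, Matrix.exp_diagonal]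
  congr 3
  funext i
  rw [Pi.coe_exp, Complex.ofReal_exp, Complex.exp_eq_exp_ℂ]

theorem trace_exp_mul (X : Matrix ι ι ℂ) :
    trace (NormedSpace.exp (-K) * X) =
      ∑ i, (Real.exp (-(hK.eigenvalues i)) : ℂ) * rot hK X i i := by
  rw [exp_neg_eq hK, mul_assoc, mul_assoc, trace_mul_comm, mul_assoc]
  rw [trace]
  refine Finset.sum_congr rfl fun i _ => ?_
  rw [diag_apply, diagonal_mul]
  rfl

theorem partFn_eq : partFn K = ∑ i, Real.exp (-(hK.eigenvalues i)) := by
  have h := trace_exp_mul hK 1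
  rw [mul_one] at h
  rw [partFn, h, Complex.re_sum, rot_one hK]
  simp only [one_apply_eq, mul_one, Complex.ofReal_re]

include hK in
theorem partFn_pos [Nonempty ι] : 0 < partFn K := by
  rw [partFn_eq hK]
  exact Finset.sum_pos (fun i _ => Real.exp_pos _) Finset.univ_nonempty

/-- Gibbs weights in the eigenbasis. -/
noncomputable def wt (i : ι) : ℝ := Real.exp (-(hK.eigenvalues i)) / partFn K

theorem wt_nonneg [Nonempty ι] (i : ι) : 0 ≤ wt hK i :=
  div_nonneg (Real.exp_pos _).le (partFn_pos hK).le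

theorem sum_wt [Nonempty ι] : ∑ i, wt hK i = 1 := by
  simp only [wt, ← Finset.sum_div, ← partFn_eq hK]
  exact div_self (partFn_pos hK).ne'

theorem avgC_eq (X : Matrix ι ι ℂ) : avgC K X = ∑ i, (wt hK i : ℂ) * rot hK X i i := by
  rw [avgC, trace_exp_mul hK, Finset.sum_div]
  refine Finset.sum_congr rfl fun i _ => ?_
  simp only [wt, Complex.ofReal_div]
  rw [mul_div_right_comm]

theorem avg_eq (X : Matrix ι ι ℂ) : avg K X = ∑ i, wt hK i * (rot hK X i i).re := by
  simp [avg, avgC_eq hK, Complex.re_sum]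

theorem rot_diag_eq (X : Matrix ι ι ℂ) (i : ι) :
    (rot hK X i i).re = qf X (fun j => (hK.eigenvectorUnitary : Matrix ι ι ℂ) j i) := by
  rw [qf_eq_sum]
  simp only [rot, mul_apply, star_apply, Finset.sum_mul, Complex.re_sum]
  exact Finset.sum_comm

include hK in
theorem avg_le_avg [Nonempty ι] {X Y : Matrix ι ι ℂ} (h : ∀ v, qf X v ≤ qf Y v) :
    avg K X ≤ avg K Y := by
  rw [avg_eq hK, avg_eq hK]
  refine Finset.sum_le_sum fun i _ => mul_le_mul_of_nonneg_left ?_ (wt_nonneg hK i)
  rw [rot_diag_eq hK, rot_diag_eq hK]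
  exact h _

include hK in
theorem avg_one [Nonempty ι] : avg K 1 = 1 := by
  simp [avg_eq hK, rot_one hK, sum_wt hK]

include hK in
theorem avg_le_of_qf [Nonempty ι] {X : Matrix ι ι ℂ} {b : ℝ}
    (h : ∀ v, qf X v ≤ b * ∑ i, Complex.normSq (v i)) : avg K X ≤ b := by
  have e : avg K ((b : ℂ) • (1 : Matrix ι ι ℂ)) = b := by rw [avg_smul, avg_one hK, mul_one]
  rw [← e]
  refine avg_le_avg hK fun v => le_trans (h v) (le_of_eq ?_)
  simp only [qf, smul_mulVec, one_mulVec, dotProduct_smul, smul_eq_mul, Complex.re_ofReal_mul]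
  simp [dotProduct, Complex.re_sum, Complex.normSq_apply]

include hK in
/-- Peierls-Bogoliubov inequality. -/
theorem peierls_bogoliubov [Nonempty ι] {K' : Matrix ι ι ℂ} (hK' : K'.IsHermitian) :
    Real.log (partFn K) - avg K (K' - K) ≤ Real.log (partFn K') := by
  set U : Matrix ι ι ℂ := (hK.eigenvectorUnitary : Matrix ι ι ℂ) with hU
  set V : Matrix ι ι ℂ := (hK'.eigenvectorUnitary : Matrix ι ι ℂ) with hV
  set W : Matrix ι ι ℂ := star U * V with hW
  have hWW : W * star W = 1 := by
    rw [hW, star_mul, star_star, mul_assoc, ← mul_assoc V, U_mul_star hK', one_mul]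
    exact star_mul_U hK
  have hrow : ∀ i, ∑ k, Complex.normSq (W i k) = 1 := by
    intro i
    have := congrFun (congrFun hWW i) i
    simp only [mul_apply, star_apply, one_apply_eq] at this
    have h2 := congrArg Complex.re this
    simpa [Complex.re_sum, Complex.normSq_apply] using h2
  have hrot : ∀ i, ((star U * (V * diagonal (fun k => (hK'.eigenvalues k : ℂ)) * star V) * U) i i).re
      = ∑ k, Complex.normSq (W i k) * hK'.eigenvalues k := by
    intro i
    have : star U * (V * diagonal (fun k => (hK'.eigenvalues k : ℂ)) * star V) * U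
        = W * diagonal (fun k => (hK'.eigenvalues k : ℂ)) * star W := by
      simp [hW, star_mul, mul_assoc]
    rw [this, mul_apply, Complex.re_sum]
    refine Finset.sum_congr rfl fun k _ => ?_
    rw [mul_diagonal, star_apply]
    simp [Complex.normSq_apply]
    ring
  have hK'eq : K' = V * diagonal (fun k => (hK'.eigenvalues k : ℂ)) * star V := by
    have h := hK'.spectral_theorem
    rw [Unitary.conjStarAlgAut_apply] at h
    exact h
  have hZ' : partFn K' = ∑ i, ∑ k, Complex.normSq (W i k) * Real.exp (-(hK'.eigenvalues k)) := by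
    have htr : trace (NormedSpace.exp (-K')) = trace (star U * NormedSpace.exp (-K') * U) := by
      rw [trace_mul_comm, ← mul_assoc, U_mul_star hK, one_mul]
    rw [partFn, htr, exp_neg_eq hK', trace, Complex.re_sum]
    refine Finset.sum_congr rfl fun i _ => ?_
    have : star U * (V * diagonal (fun k => (Real.exp (-(hK'.eigenvalues k)) : ℂ)) * star V) * U
        = W * diagonal (fun k => (Real.exp (-(hK'.eigenvalues k)) : ℂ)) * star W := by
      simp [hW, star_mul, mul_assoc]
    rw [diag_apply, this, mul_apply, Complex.re_sum]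
    refine Finset.sum_congr rfl fun k _ => ?_
    rw [mul_diagonal, star_apply]
    simp [Complex.normSq_apply, -Complex.ofReal_exp]
    ring
  set b : ι → ℝ := fun i => (rot hK (K' - K) i i).re with hb
  have hbd : ∀ i, hK.eigenvalues i + b i = ∑ k, Complex.normSq (W i k) * hK'.eigenvalues k := by
    intro i
    have e : rot hK (K' - K) = rot hK K' - rot hK K := by simp [rot, mul_sub, sub_mul]
    have e2 : (rot hK K' i i).re = ∑ k, Complex.normSq (W i k) * hK'.eigenvalues k := by
      conv_lhs => rw [rot, hK'eq]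
      exact hrot i
    simp only [hb, e, rot_self hK, Matrix.sub_apply, diagonal_apply_eq, Complex.sub_re,
      Complex.ofReal_re, e2]
    ring
  have hstep : ∀ i, Real.exp (-(hK.eigenvalues i)) * Real.exp (-(b i))
      ≤ ∑ k, Complex.normSq (W i k) * Real.exp (-(hK'.eigenvalues k)) := by
    intro i
    have hj := convexOn_exp.map_sum_le (t := Finset.univ)
      (w := fun k => Complex.normSq (W i k)) (p := fun k => -(hK'.eigenvalues k))
      (fun k _ => Complex.normSq_nonneg _) (hrow i) (fun k _ => Set.mem_univ _)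
    simp only [smul_eq_mul, mul_neg, Finset.sum_neg_distrib] at hj
    rw [← Real.exp_add]
    calc Real.exp (-(hK.eigenvalues i) + -(b i))
        = Real.exp (-(∑ k, Complex.normSq (W i k) * hK'.eigenvalues k)) := by
          rw [← hbd i]; ring_nf
      _ ≤ _ := hj
  have hj2 := convexOn_exp.map_sum_le (t := Finset.univ)
      (w := fun i => wt hK i) (p := fun i => -(b i))
      (fun i _ => wt_nonneg hK i) (sum_wt hK) (fun i _ => Set.mem_univ _)
  simp only [smul_eq_mul, mul_neg, Finset.sum_neg_distrib] at hj2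
  have hav : avg K (K' - K) = ∑ i, wt hK i * b i := avg_eq hK _
  have hpos := partFn_pos hK
  have h3 : partFn K * Real.exp (-(avg K (K' - K))) ≤ partFn K' := by
    rw [hav]
    refine le_trans (mul_le_mul_of_nonneg_left hj2 hpos.le) ?_
    rw [hZ', Finset.mul_sum]
    refine Finset.sum_le_sum fun i _ => le_trans (le_of_eq ?_) (hstep i)
    simp only [wt]
    field_simp
  have h4 := Real.log_le_log (mul_pos hpos (Real.exp_pos _)) h3
  rw [Real.log_mul hpos.ne' (Real.exp_pos _).ne', Real.log_exp] at h4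
  linarith

/-- The elementary inequality behind Roepstorff's bound. -/
theorem roepstorff_scalar (t : ℝ) (ht : 0 < t) (w : ℝ) :
    (Real.exp t / (Real.exp t - 1) ^ 2 * t + 1 / (Real.exp t - 1)) * (Real.exp w - 1)
      - Real.exp t / (Real.exp t - 1) ^ 2 * (w * (Real.exp w - 1)) ≤ 1 := by
  have hT : (0 : ℝ) < Real.exp t - 1 := sub_pos.mpr (Real.one_lt_exp_iff.mpr ht)
  obtain ⟨u, rfl⟩ : ∃ u, w = t + u := ⟨w - t, by ring⟩
  have h1 : 0 ≤ u * Real.exp u - Real.exp u + 1 := by
    have h := Real.add_one_le_exp (-u)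
    have e : Real.exp u * Real.exp (-u) = 1 := by rw [← Real.exp_add]; simp
    nlinarith [mul_le_mul_of_nonneg_left h (Real.exp_pos u).le]
  have h2 : 0 ≤ u * (Real.exp u - 1) := by
    rcases le_total 0 u with h | h
    · exact mul_nonneg h (sub_nonneg.mpr (Real.one_le_exp h))
    · exact mul_nonneg_of_nonpos_of_nonpos h (sub_nonpos.mpr (Real.exp_le_one_iff.mpr h))
  rw [Real.exp_add]
  have key : 0 ≤ Real.exp t * ((Real.exp t - 1) * (u * Real.exp u - Real.exp u + 1)
      + u * (Real.exp u - 1)) :=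
    mul_nonneg (Real.exp_pos t).le (add_nonneg (mul_nonneg hT.le h1) h2)
  rw [← sub_nonneg]
  have e : 1 - ((Real.exp t / (Real.exp t - 1) ^ 2 * t + 1 / (Real.exp t - 1)) *
        (Real.exp t * Real.exp u - 1)
      - Real.exp t / (Real.exp t - 1) ^ 2 * ((t + u) * (Real.exp t * Real.exp u - 1)))
      = (Real.exp t * ((Real.exp t - 1) * (u * Real.exp u - Real.exp u + 1)
      + u * (Real.exp u - 1))) / (Real.exp t - 1) ^ 2 := by
    field_simp
    ring
  rw [e]
  exact div_nonneg key (sq_nonneg _)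

include hK in
/-- Roepstorff's inequality: if the double commutator is at most `t` times the commutator,
then the average of `A A*` is at least the commutator times the Bose factor at `t`. -/
theorem roepstorff [Nonempty ι] (A : Matrix ι ι ℂ) {t : ℝ} (ht : 0 < t)
    (hc : avg K ((Aᴴ * K - K * Aᴴ) * A - A * (Aᴴ * K - K * Aᴴ))
      ≤ t * (avg K (Aᴴ * A) - avg K (A * Aᴴ))) :
    (avg K (Aᴴ * A) - avg K (A * Aᴴ)) / (Real.exp t - 1) ≤ avg K (A * Aᴴ) := by
  set U : Matrix ι ι ℂ := (hK.eigenvectorUnitary : Matrix ι ι ℂ) with hU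
  set R : Matrix ι ι ℂ := rot hK A with hR
  set l : ι → ℝ := hK.eigenvalues with hl
  set a : ι → ι → ℝ := fun i j => Complex.normSq (R i j) with ha
  have hmul : ∀ X Y : Matrix ι ι ℂ, rot hK (X * Y) = rot hK X * rot hK Y := by
    intro X Y
    simp only [rot, mul_assoc]
    rw [← mul_assoc U (star U), U_mul_star hK, one_mul]
  have hsub : ∀ X Y : Matrix ι ι ℂ, rot hK (X - Y) = rot hK X - rot hK Y := by
    intro X Y; simp [rot, mul_sub, sub_mul]
  have hH : rot hK Aᴴ = Rᴴ := by
    simp [hR, rot, conjTranspose_mul, star_eq_conjTranspose, mul_assoc]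
  have hG : avg K (A * Aᴴ) = ∑ i, ∑ j, wt hK i * a i j := by
    rw [avg_eq hK]
    refine Finset.sum_congr rfl fun i _ => ?_
    rw [hmul, hH, ← hR, mul_apply, Complex.re_sum, Finset.mul_sum]
    simp [ha, conjTranspose_apply, Complex.normSq_apply]
  have hG' : avg K (Aᴴ * A) = ∑ i, ∑ j, wt hK j * a i j := by
    rw [avg_eq hK, Finset.sum_comm (f := fun i j => wt hK j * a i j)]
    refine Finset.sum_congr rfl fun i _ => ?_
    rw [hmul, hH, ← hR, mul_apply, Complex.re_sum, Finset.mul_sum]
    simp [ha, conjTranspose_apply, Complex.normSq_apply]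
  have hC : avg K ((Aᴴ * K - K * Aᴴ) * A - A * (Aᴴ * K - K * Aᴴ))
      = ∑ i, ∑ j, (wt hK j - wt hK i) * ((l i - l j) * a i j) := by
    rw [avg_eq hK]
    have e : rot hK ((Aᴴ * K - K * Aᴴ) * A - A * (Aᴴ * K - K * Aᴴ))
        = (Rᴴ * diagonal (fun i => (l i : ℂ)) - diagonal (fun i => (l i : ℂ)) * Rᴴ) * R
          - R * (Rᴴ * diagonal (fun i => (l i : ℂ)) - diagonal (fun i => (l i : ℂ)) * Rᴴ) := by
      simp only [hsub, hmul, hH, rot_self hK]
      rfl
    set B : Matrix ι ι ℂ :=
      Rᴴ * diagonal (fun i => (l i : ℂ)) - diagonal (fun i => (l i : ℂ)) * Rᴴ with hBdef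
    have hB : ∀ i j, B j i = ((l i - l j : ℝ) : ℂ) * star (R i j) := by
      intro i j
      rw [hBdef, Matrix.sub_apply, mul_diagonal, diagonal_mul, conjTranspose_apply]
      push_cast
      ring
    simp only [e]
    simp only [Matrix.sub_apply, Matrix.mul_apply, hB, Complex.sub_re, Complex.re_sum, mul_sub,
      Finset.sum_sub_distrib, Finset.mul_sum, sub_mul]
    rw [Finset.sum_comm (f := fun i j => wt hK i * (((l j - l i : ℝ) : ℂ) * star (R j i) * R j i).re)]
    simp only [← Finset.sum_sub_distrib]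
    refine Finset.sum_congr rfl fun i _ => Finset.sum_congr rfl fun j _ => ?_
    simp [ha, Complex.normSq_apply]
    ring
  have hexp : ∀ i j, wt hK j = wt hK i * Real.exp (l i - l j) := by
    intro i j
    simp only [wt, hl, div_mul_eq_mul_div]
    rw [← Real.exp_add]
    ring_nf
  set g : ℝ := Real.exp t / (Real.exp t - 1) ^ 2 with hg
  have hg0 : 0 ≤ g := div_nonneg (Real.exp_pos t).le (sq_nonneg _)
  have main : (g * t + 1 / (Real.exp t - 1)) * (avg K (Aᴴ * A) - avg K (A * Aᴴ))
      - g * avg K ((Aᴴ * K - K * Aᴴ) * A - A * (Aᴴ * K - K * Aᴴ)) ≤ avg K (A * Aᴴ) := by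
    rw [hG, hG', hC]
    simp only [← Finset.sum_sub_distrib, Finset.mul_sum]
    refine Finset.sum_le_sum fun i _ => Finset.sum_le_sum fun j _ => ?_
    rw [hexp i j]
    have h := mul_le_mul_of_nonneg_left (roepstorff_scalar t ht (l i - l j))
      (mul_nonneg (wt_nonneg hK i) (Complex.normSq_nonneg (R i j)))
    simp only [ha, hg] at h ⊢
    linarith
  have h5 := mul_le_mul_of_nonneg_left hc hg0
  rw [div_eq_mul_one_div]
  linarith

end spectral

end Vale.Agent.P361
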