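import Vale.Agent.P361.Sums

/-!
Passage to the thermodynamic limit and to zero temperature.
-/

open Matrix Finset Filter
open scoped Topology

namespace Vale.Agent.P361

variable {n N : ℕ}

theorem pressureN_eq (β h : ℝ) :
    pressureN n N β h =
      Real.log (partFn (gibbsMat n N β h)) / (β * Fintype.card (Site N)) := by
  rw [pressureN, partFn, gibbsMat, neg_smul]

theorem avg_gibbsMat (K : Op n N) (β h : ℝ) : avg K (gibbsMat n N β h) =
    β * (avg K (hamiltonian n N) - h * avg K (magnetization n N)) := by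
  rw [gibbsMat, avg_smul, avg_sub, avg_smul]

theorem magN_supporting {β : ℝ} (hβ : 0 < β) (h h' : ℝ) :
    pressureN n N β h + (h' - h) * magN n N β h ≤ pressureN n N β h' := by
  have hV : (0 : ℝ) < Fintype.card (Site N) := by exact_mod_cast card_site_pos (N := N)
  have hpb := peierls_bogoliubov (gibbsMat_isHermitian (n := n) (N := N) β h)
    (gibbsMat_isHermitian (n := n) (N := N) β h')
  rw [avg_sub, avg_gibbsMat, avg_gibbsMat] at hpb
  rw [pressureN_eq, pressureN_eq, magN, le_div_iff₀ (mul_pos hβ hV), add_mul,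
    div_mul_cancel₀ _ (mul_pos hβ hV).ne']
  have e : (h' - h) * (avg (gibbsMat n N β h) (magnetization n N) / Fintype.card (Site N)) *
      (β * Fintype.card (Site N)) = β * ((h' - h) * avg (gibbsMat n N β h) (magnetization n N)) := by
    field_simp
  linarith

theorem abs_avg_magnetization_le {K : Op n N} (hK : K.IsHermitian) :
    |avg K (magnetization n N)| ≤ (n : ℝ) / 2 * Fintype.card (Site N) := by
  rw [magnetization, avg_sum]
  refine le_trans (Finset.abs_sum_le_sum_abs _ _) ?_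
  calc ∑ x : Site N, |avg K (atSite x (spin3 n))| ≤ ∑ _x : Site N, (n : ℝ) / 2 := by
        refine Finset.sum_le_sum fun x _ => abs_le'.2 ⟨?_, ?_⟩
        · refine avg_le_of_qf hK fun v => ?_
          rw [spin3, atSite_diagonal,
            qf_diagonal (fun σ : Config n N => (n : ℝ) / 2 - (σ x : ℕ)), Finset.mul_sum]
          exact Finset.sum_le_sum fun σ _ =>
            mul_le_mul_of_nonneg_right (by simp) (Complex.normSq_nonneg _)
        · have : -avg K (atSite x (spin3 n)) = avg K (-atSite x (spin3 n)) := by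
            simp [avg, avgC_neg]
          rw [this]
          refine avg_le_of_qf hK fun v => ?_
          rw [spin3, atSite_diagonal, diagonal_neg]
          simp only [← Complex.ofReal_neg]
          rw [qf_diagonal (fun σ : Config n N => -((n : ℝ) / 2 - (σ x : ℕ))), Finset.mul_sum]
          refine Finset.sum_le_sum fun σ _ =>
            mul_le_mul_of_nonneg_right ?_ (Complex.normSq_nonneg _)
          have : ((σ x : ℕ) : ℝ) ≤ n := by exact_mod_cast (σ x).is_le
          linarith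
    _ = _ := by simp [Finset.card_univ, mul_comm]

theorem adj_count_le (x : Site N) :
    ((Finset.univ.filter fun y : Site N => Adj x y).card : ℝ) ≤ 27 := by
  have h : ∀ y : Site N, Adj x y → ∀ j, |((x j : ℕ) : ℤ) - (y j : ℕ)| ≤ 1 := by
    intro y hy j
    calc |((x j : ℕ) : ℤ) - (y j : ℕ)| ≤ ∑ i, |((x i : ℕ) : ℤ) - (y i : ℕ)| :=
          Finset.single_le_sum (f := fun i => |((x i : ℕ) : ℤ) - (y i : ℕ)|)
            (fun i _ => abs_nonneg _) (Finset.mem_univ j)
      _ = 1 := hy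
  have : (Finset.univ.filter fun y : Site N => Adj x y).card ≤
      (Finset.univ : Finset (Fin 3 → Fin 3)).card := by
    refine Finset.card_le_card_of_injOn
      (fun y j => ⟨((((x j : ℕ) : ℤ) - (y j : ℕ) + 1).toNat) % 3, Nat.mod_lt _ (by norm_num)⟩)
      (fun y _ => Finset.mem_univ _) ?_
    intro a ha b hb hab
    simp only [Finset.coe_filter, Finset.mem_univ, true_and, Set.mem_ofPred_eq] at ha hb
    funext j
    have h1 := abs_le.1 (h a ha j)
    have h2 := abs_le.1 (h b hb j)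
    have h3 := congrArg Fin.val (congrFun hab j)
    simp only at h3
    exact Fin.ext (by omega)
  have e : (Finset.univ : Finset (Fin 3 → Fin 3)).card = 27 := by simp
  rw [e] at this
  exact_mod_cast this

theorem avg_hamiltonian_ge {K : Op n N} (hK : K.IsHermitian) :
    -(27 * ((n : ℝ) / 2) ^ 2 * Fintype.card (Site N)) ≤ avg K (hamiltonian n N) := by
  rw [hamiltonian, show (-(1 / 2) : ℂ) = ((-(1 / 2) : ℝ) : ℂ) by push_cast; rfl, avg_smul, avg_sum]
  have h : ∑ x : Site N, avg K (∑ y : Site N, if Adj x y then spinDot n x y else 0) ≤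
      ∑ _x : Site N, 27 * ((n : ℝ) / 2) ^ 2 := by
    refine Finset.sum_le_sum fun x _ => ?_
    rw [← Finset.sum_filter, avg_sum]
    refine le_trans (Finset.sum_le_sum fun y hy => avg_le_of_qf hK fun v =>
      qf_spinDot_le (adj_ne (Finset.mem_filter.1 hy).2) v) ?_
    rw [Finset.sum_const, nsmul_eq_mul]
    exact mul_le_mul_of_nonneg_right (adj_count_le x) (sq_nonneg _)
  rw [Finset.sum_const, Finset.card_univ, nsmul_eq_mul] at h
  have : (0 : ℝ) ≤ (Fintype.card (Site N) : ℝ) * (27 * ((n : ℝ) / 2) ^ 2) := by positivity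
  linarith

theorem partFn_zero : partFn (0 : Op n N) = (Fintype.card (Config n N) : ℝ) := by
  rw [partFn, neg_zero, NormedSpace.exp_zero, trace_one]
  exact Complex.natCast_re _

theorem avg_zero_spinDot_le {x y : Site N} (hxy : x ≠ y) :
    -((n : ℝ) / 2) ^ 2 ≤ avg (0 : Op n N) (spinDot n x y) := by
  have hcard : (0 : ℝ) < Fintype.card (Config n N) := by exact_mod_cast Fintype.card_pos
  have hZ : partFn (0 : Op n N) = Fintype.card (Config n N) := partFn_zero
  have hzero : ∀ σ : Config n N, (spinDot n x y σ σ).re =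
      ((n : ℝ) / 2 - (σ x : ℕ)) * ((n : ℝ) / 2 - (σ y : ℕ)) := by
    intro σ
    simp [spinDot_eq, Matrix.add_apply, Matrix.smul_apply, atSite_mul_apply hxy, raiseMat, spin3]
  rw [avg, avgC, hZ, neg_zero, NormedSpace.exp_zero, one_mul, Complex.div_ofReal_re, trace,
    Complex.re_sum, le_div_iff₀ hcard]
  calc -((n : ℝ) / 2) ^ 2 * Fintype.card (Config n N)
      = ∑ _σ : Config n N, -((n : ℝ) / 2) ^ 2 := by simp [Finset.card_univ, mul_comm]
    _ ≤ _ := by
        refine Finset.sum_le_sum fun σ _ => ?_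
        rw [diag_apply, hzero σ]
        have h1 : ((σ x : ℕ) : ℝ) ≤ n := by exact_mod_cast (σ x).is_le
        have h2 : ((σ y : ℕ) : ℝ) ≤ n := by exact_mod_cast (σ y).is_le
        have h3 : (0 : ℝ) ≤ (σ x : ℕ) := Nat.cast_nonneg _
        have h4 : (0 : ℝ) ≤ (σ y : ℕ) := Nat.cast_nonneg _
        nlinarith [mul_nonneg h3 h4, mul_nonneg (sub_nonneg.mpr h1) (sub_nonneg.mpr h2)]

theorem avg_zero_hamiltonian_le :
    avg (0 : Op n N) (hamiltonian n N) ≤ 27 * ((n : ℝ) / 2) ^ 2 * Fintype.card (Site N) := by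
  rw [hamiltonian, show (-(1 / 2) : ℂ) = ((-(1 / 2) : ℝ) : ℂ) by push_cast; rfl, avg_smul, avg_sum]
  have h : ∑ _x : Site N, -(27 * ((n : ℝ) / 2) ^ 2) ≤
      ∑ x : Site N, avg (0 : Op n N) (∑ y : Site N, if Adj x y then spinDot n x y else 0) := by
    refine Finset.sum_le_sum fun x _ => ?_
    rw [← Finset.sum_filter, avg_sum]
    refine le_trans ?_
      (Finset.sum_le_sum fun y hy => avg_zero_spinDot_le (adj_ne (Finset.mem_filter.1 hy).2))
    rw [Finset.sum_const, nsmul_eq_mul]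
    have := mul_le_mul_of_nonneg_right (adj_count_le x) (sq_nonneg ((n : ℝ) / 2))
    linarith
  rw [Finset.sum_const, Finset.card_univ, nsmul_eq_mul] at h
  have : (0 : ℝ) ≤ (Fintype.card (Site N) : ℝ) * (27 * ((n : ℝ) / 2) ^ 2) := by positivity
  linarith

theorem abs_pressureN_le {β : ℝ} (hβ : 0 < β) (h : ℝ) :
    |pressureN n N β h| ≤
      Real.log ((n : ℝ) + 1) / β + 27 * ((n : ℝ) / 2) ^ 2 + |h| * ((n : ℝ) / 2) := by
  have hV : (0 : ℝ) < Fintype.card (Site N) := by exact_mod_cast card_site_pos (N := N)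
  have hZ : Real.log (partFn (0 : Op n N)) =
      Fintype.card (Site N) * Real.log ((n : ℝ) + 1) := by
    simp [partFn_zero, Real.log_pow]
  have h0 : (0 : Op n N).IsHermitian := conjTranspose_zero
  have hK := gibbsMat_isHermitian (n := n) (N := N) β h
  have a0 : avg (0 : Op n N) (0 : Op n N) = 0 := by simp [avg, avgC_zero]
  have a1 : avg (gibbsMat n N β h) (0 : Op n N) = 0 := by simp [avg, avgC_zero]
  have lo := peierls_bogoliubov h0 hK
  have hi := peierls_bogoliubov hK h0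
  rw [avg_sub, a0, avg_gibbsMat, hZ] at lo
  rw [avg_sub, a1, avg_gibbsMat, hZ] at hi
  have m0 := abs_avg_magnetization_le h0 (n := n) (N := N)
  have m1 := abs_avg_magnetization_le hK
  have e0 := avg_zero_hamiltonian_le (n := n) (N := N)
  have e1 := avg_hamiltonian_ge hK
  have hl : 0 ≤ Real.log ((n : ℝ) + 1) := Real.log_nonneg (by simp)
  have p : ∀ a : ℝ, |a| ≤ (n : ℝ) / 2 * Fintype.card (Site N) →
      |h * a| ≤ |h| * ((n : ℝ) / 2) * Fintype.card (Site N) := by
    intro a ha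
    rw [abs_mul, mul_assoc]
    exact mul_le_mul_of_nonneg_left ha (abs_nonneg h)
  have p0 := abs_le.1 (p _ m0)
  have p1 := abs_le.1 (p _ m1)
  rw [pressureN_eq, abs_div, abs_of_pos (mul_pos hβ hV), div_le_iff₀ (mul_pos hβ hV), abs_le]
  have eR : (Real.log ((n : ℝ) + 1) / β + 27 * ((n : ℝ) / 2) ^ 2 + |h| * ((n : ℝ) / 2)) *
      (β * Fintype.card (Site N)) = Fintype.card (Site N) * Real.log ((n : ℝ) + 1) +
      β * (27 * ((n : ℝ) / 2) ^ 2 * Fintype.card (Site N) +
        |h| * ((n : ℝ) / 2) * Fintype.card (Site N)) := by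
    field_simp
    ring
  rw [eR]
  have hVl : 0 ≤ (Fintype.card (Site N) : ℝ) * Real.log ((n : ℝ) + 1) := mul_nonneg hV.le hl
  constructor
  · nlinarith
  · nlinarith

theorem isBoundedUnder_le {β : ℝ} (hβ : 0 < β) (h : ℝ) :
    IsBoundedUnder (· ≤ ·) atTop (fun N => pressureN n N β h) :=
  isBoundedUnder_of ⟨_, fun N => (abs_le.1 (abs_pressureN_le (N := N) hβ h)).2⟩

theorem isCoboundedUnder_le {β : ℝ} (hβ : 0 < β) (h : ℝ) :
    IsCoboundedUnder (· ≤ ·) atTop (fun N => pressureN n N β h) :=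
  (isBoundedUnder_of (r := (· ≥ ·)) (f := atTop) (u := fun N => pressureN n N β h)
    ⟨_, fun N => (abs_le.1 (abs_pressureN_le (N := N) hβ h)).1⟩).isCoboundedUnder_le

theorem pressureN_convex {β : ℝ} (hβ : 0 < β) (x y a b : ℝ) (ha : 0 ≤ a) (hb : 0 ≤ b)
    (hab : a + b = 1) :
    pressureN n N β (a * x + b * y) ≤ a * pressureN n N β x + b * pressureN n N β y := by
  have h1 := mul_le_mul_of_nonneg_left (magN_supporting (n := n) (N := N) hβ (a * x + b * y) x) ha
  have h2 := mul_le_mul_of_nonneg_left (magN_supporting (n := n) (N := N) hβ (a * x + b * y) y) hb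
  obtain rfl : b = 1 - a := by linarith
  linarith

theorem pressure_convexOn {β : ℝ} (hβ : 0 < β) : ConvexOn ℝ Set.univ (pressure n β) := by
  refine ⟨convex_univ, fun x _ y _ a b ha hb hab => ?_⟩
  simp only [smul_eq_mul]
  refine le_of_forall_pos_le_add fun ε hε => ?_
  have hx := eventually_lt_of_limsup_lt (lt_add_of_pos_right (pressure n β x) hε)
    (isBoundedUnder_le hβ x)
  have hy := eventually_lt_of_limsup_lt (lt_add_of_pos_right (pressure n β y) hε)
    (isBoundedUnder_le hβ y)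
  refine limsup_le_of_le (isCoboundedUnder_le hβ _) ?_
  filter_upwards [hx, hy] with N hxN hyN
  have h1 := mul_le_mul_of_nonneg_left hxN.le ha
  have h2 := mul_le_mul_of_nonneg_left hyN.le hb
  have h3 : a * ε + b * ε = ε := by rw [← add_mul, hab, one_mul]
  linarith [pressureN_convex (n := n) (N := N) hβ x y a b ha hb hab]

theorem hasRightDeriv {β : ℝ} (hβ : 0 < β) :
    HasDerivWithinAt (pressure n β) (spontMag n β) (Set.Ioi 0) 0 :=
  (pressure_convexOn hβ).hasDerivWithinAt_rightDeriv_of_mem_interior (by simp)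

/-- The lower bound on the magnetization deficit at field `h`. -/
noncomputable def deficit (n K : ℕ) (β h d : ℝ) (e : ℝ) : ℝ :=
  min ((n : ℝ) / 2 * (1 - d)) (d * ∑ l ∈ Finset.range K, Real.exp (-(((l : ℝ) + 1) * (β * h))) *
    (max (gaussBox (((l : ℝ) + 1) * β * ((n : ℝ) / d)) - e) 0) ^ 3)

theorem magN_le_deficit (K : ℕ) {β h d : ℝ} (hn : 1 ≤ n) (hβ : 0 < β) (hh : 0 < h) (hd : 0 < d) :
    magN n N β h ≤ (n : ℝ) / 2 - deficit n K β h d (2 / (2 * N + 1 : ℕ)) := by
  unfold deficit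
  by_cases hm : (n : ℝ) / 2 * d ≤ magN n N β h
  · have h1 := magN_le hn hβ hh hd hm
    have h2 := mul_le_mul_of_nonneg_left
      (boseSum_ge K N hβ hh (div_nonneg (Nat.cast_nonneg n) hd.le)) hd.le
    rw [mul_div_assoc] at h1
    have h3 := min_le_right ((n : ℝ) / 2 * (1 - d))
      (d * ∑ l ∈ Finset.range K, Real.exp (-(((l : ℝ) + 1) * (β * h))) *
        (max (gaussBox (((l : ℝ) + 1) * β * ((n : ℝ) / d)) - 2 / (2 * N + 1 : ℕ)) 0) ^ 3)
    linarith
  · have h3 := min_le_left ((n : ℝ) / 2 * (1 - d))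
      (d * ∑ l ∈ Finset.range K, Real.exp (-(((l : ℝ) + 1) * (β * h))) *
        (max (gaussBox (((l : ℝ) + 1) * β * ((n : ℝ) / d)) - 2 / (2 * N + 1 : ℕ)) 0) ^ 3)
    linarith [not_le.1 hm]

theorem continuous_deficit (n K : ℕ) (β d : ℝ) :
    Continuous fun p : ℝ × ℝ => deficit n K β p.1 d p.2 := by
  unfold deficit
  fun_prop

theorem pressure_increment_le (K : ℕ) {β h d : ℝ} (hn : 1 ≤ n) (hβ : 0 < β) (hh : 0 < h)
    (hd : 0 < d) :
    pressure n β h ≤ pressure n β 0 + h * ((n : ℝ) / 2 - deficit n K β h d 0) := by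
  refine le_of_forall_pos_le_add fun ε hε => ?_
  have h0 := eventually_lt_of_limsup_lt (lt_add_of_pos_right (pressure n β 0) (half_pos hε))
    (isBoundedUnder_le hβ 0)
  have he : Tendsto (fun N : ℕ => (2 : ℝ) / (2 * N + 1 : ℕ)) atTop (𝓝 0) := by
    refine tendsto_const_nhds.div_atTop (tendsto_natCast_atTop_atTop.comp ?_)
    exact tendsto_atTop_mono (fun N => show N ≤ 2 * N + 1 by omega) tendsto_id
  have hlim : Tendsto (fun N : ℕ => h * ((n : ℝ) / 2 - deficit n K β h d (2 / (2 * N + 1 : ℕ))))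
      atTop (𝓝 (h * ((n : ℝ) / 2 - deficit n K β h d 0))) :=
    (((continuous_deficit n K β d).tendsto (h, 0)).comp
      (tendsto_const_nhds.prodMk_nhds he)).const_sub _ |>.const_mul h
  have h1 := hlim.eventually (eventually_lt_nhds (lt_add_of_pos_right _ (half_pos hε)))
  refine limsup_le_of_le (isCoboundedUnder_le hβ _) ?_
  filter_upwards [h0, h1] with N hN0 hN1
  have h2 := magN_supporting (n := n) (N := N) hβ h 0
  have h3 := mul_le_mul_of_nonneg_left (magN_le_deficit (N := N) K hn hβ hh hd) hh.le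
  linarith

theorem spontMag_le (K : ℕ) {β d : ℝ} (hn : 1 ≤ n) (hβ : 0 < β) (hd : 0 < d) :
    spontMag n β ≤ (n : ℝ) / 2 - deficit n K β 0 d 0 := by
  have hlim : Tendsto (fun h : ℝ => (n : ℝ) / 2 - deficit n K β h d 0) (𝓝[>] (0 : ℝ))
      (𝓝 ((n : ℝ) / 2 - deficit n K β 0 d 0)) := by
    have hc : Continuous fun h : ℝ => deficit n K β h d 0 :=
      (continuous_deficit n K β d).comp (continuous_id.prodMk (continuous_const (y := (0 : ℝ))))
    exact ((hc.tendsto 0).mono_left nhdsWithin_le_nhds).const_sub _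
  refine ge_of_tendsto hlim ?_
  filter_upwards [self_mem_nhdsWithin] with h hh
  refine le_trans ((pressure_convexOn hβ).rightDeriv_le_slope_of_mem_interior (by simp)
    (Set.mem_univ h) hh) ?_
  rw [slope_def_field, sub_zero, div_le_iff₀ (hh : (0 : ℝ) < h)]
  linarith [pressure_increment_le K hn hβ (hh : (0 : ℝ) < h) hd]

/-- The coefficient predicted by spin-wave theory. -/
theorem zeta_three_halves : (riemannZeta (3 / 2)).re =
    ∑' l : ℕ, 1 / ((l : ℝ) + 1) ^ (3 / 2 : ℝ) := by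
  rw [zeta_eq_tsum_one_div_nat_add_one_cpow (by norm_num)]
  have : ∀ l : ℕ, (1 : ℂ) / ((l : ℂ) + 1) ^ (3 / 2 : ℂ) =
      ((1 / ((l : ℝ) + 1) ^ (3 / 2 : ℝ) : ℝ) : ℂ) := by
    intro l
    rw [Complex.ofReal_div, Complex.ofReal_cpow (by positivity)]
    push_cast
    rfl
  simp only [this, ← Complex.ofReal_tsum, Complex.ofReal_re]

theorem summable_three_halves :
    Summable fun l : ℕ => 1 / ((l : ℝ) + 1) ^ (3 / 2 : ℝ) := by
  have h := (Real.summable_one_div_nat_rpow (p := (3 / 2 : ℝ))).2 (by norm_num)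
  have h' := (summable_nat_add_iff 1).2 h
  simpa using h'

theorem coeff_term (n l : ℕ) :
    (1 / Real.sqrt (2 * Real.pi) / Real.sqrt (((l : ℝ) + 1) * ((n : ℝ) / 1))) ^ 3 =
      1 / (8 * Real.pi ^ (3 / 2 : ℝ) * ((n : ℝ) / 2) ^ (3 / 2 : ℝ)) *
        (1 / ((l : ℝ) + 1) ^ (3 / 2 : ℝ)) := by
  have key : ∀ x : ℝ, 0 ≤ x → Real.sqrt x ^ 3 = x ^ (3 / 2 : ℝ) := by
    intro x hx
    rw [Real.sqrt_eq_rpow, ← Real.rpow_natCast, ← Real.rpow_mul hx]
    norm_num
  rw [div_one, div_div, div_pow, one_pow, ← Real.sqrt_mul (by positivity),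
    key _ (by positivity), one_div_mul_one_div]
  congr 1
  rw [show 2 * Real.pi * (((l : ℝ) + 1) * n) = 4 * Real.pi * ((n : ℝ) / 2) * ((l : ℝ) + 1) by ring,
    Real.mul_rpow (by positivity) (by positivity), Real.mul_rpow (by positivity) (by positivity),
    Real.mul_rpow (by positivity) (by positivity)]
  congr 3
  rw [← key 4 (by norm_num), show (4 : ℝ) = 2 ^ 2 by norm_num, Real.sqrt_sq (by norm_num)]
  norm_num

theorem bloch_lower (hn : 1 ≤ n) {ε : ℝ} (hε : 0 < ε) :
    ∀ᶠ β in atTop,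
      (riemannZeta (3 / 2)).re / (8 * Real.pi ^ (3 / 2 : ℝ) * ((n : ℝ) / 2) ^ (3 / 2 : ℝ)) - ε
        ≤ β ^ (3 / 2 : ℝ) * ((n : ℝ) / 2 - spontMag n β) := by
  have hn0 : (0 : ℝ) < n := by exact_mod_cast hn
  set C := (riemannZeta (3 / 2)).re / (8 * Real.pi ^ (3 / 2 : ℝ) * ((n : ℝ) / 2) ^ (3 / 2 : ℝ))
    with hC
  set P : ℝ → ℕ → ℝ := fun d K => d * ∑ l ∈ Finset.range K,
    (1 / Real.sqrt (2 * Real.pi) / Real.sqrt (((l : ℝ) + 1) * ((n : ℝ) / d))) ^ 3 with hP
  have hK : Tendsto (fun K => P 1 K) atTop (𝓝 C) := by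
    have h1 := summable_three_halves.hasSum.tendsto_sum_nat.const_mul
      (1 / (8 * Real.pi ^ (3 / 2 : ℝ) * ((n : ℝ) / 2) ^ (3 / 2 : ℝ)))
    rw [← zeta_three_halves, one_div_mul_eq_div, ← hC] at h1
    refine h1.congr fun K => ?_
    simp only [hP, one_mul, Finset.mul_sum, coeff_term]
  obtain ⟨K, hK'⟩ := (hK.eventually (eventually_gt_nhds (show C - ε / 2 < C by linarith))).exists
  have hcont : ContinuousAt (fun d => P d K) 1 := by
    simp only [hP]
    refine continuousAt_id.mul (tendsto_finsetSum _ fun l _ => ?_)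
    refine ContinuousAt.pow (ContinuousAt.div continuousAt_const ?_ ?_) 3
    · exact (continuousAt_const.mul (continuousAt_const.div continuousAt_id one_ne_zero)).sqrt
    · rw [div_one]; positivity
  obtain ⟨d, hdP, hd0, hd1⟩ : ∃ d : ℝ, C - ε / 2 < P d K ∧ 0 < d ∧ d < 1 := by
    have h1 : ∀ᶠ d in 𝓝[<] (1 : ℝ), C - ε / 2 < P d K ∧ 0 < d ∧ d < 1 := by
      refine ((eventually_nhdsWithin_of_eventually_nhds
        (hcont.eventually (eventually_gt_nhds hK'))).and
        ((eventually_nhdsWithin_of_eventually_nhds (eventually_gt_nhds (zero_lt_one' ℝ))).and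
          self_mem_nhdsWithin))
    exact h1.exists
  have hterm : ∀ l : ℕ, Tendsto
      (fun β : ℝ => Real.sqrt β * gaussBox (((l : ℝ) + 1) * β * ((n : ℝ) / d))) atTop
      (𝓝 (1 / Real.sqrt (2 * Real.pi) / Real.sqrt (((l : ℝ) + 1) * ((n : ℝ) / d)))) := by
    intro l
    have hc : 0 < ((l : ℝ) + 1) * ((n : ℝ) / d) := by positivity
    have h1 := (tendsto_sqrt_mul_gaussBox.comp
      (tendsto_id.const_mul_atTop hc)).div_const (Real.sqrt (((l : ℝ) + 1) * ((n : ℝ) / d)))
    refine h1.congr' ?_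
    filter_upwards [eventually_ge_atTop (0 : ℝ)] with β hβ
    simp only [Function.comp_apply, id_eq]
    rw [Real.sqrt_mul hc.le, show ((l : ℝ) + 1) * β * ((n : ℝ) / d)
      = ((l : ℝ) + 1) * ((n : ℝ) / d) * β by ring]
    field_simp
  have hlim : Tendsto (fun β : ℝ => d * ∑ l ∈ Finset.range K,
      (Real.sqrt β * gaussBox (((l : ℝ) + 1) * β * ((n : ℝ) / d))) ^ 3) atTop (𝓝 (P d K)) :=
    (tendsto_finsetSum _ fun l _ => (hterm l).pow 3).const_mul d
  have hbig : Tendsto (fun β : ℝ => β ^ (3 / 2 : ℝ) * ((n : ℝ) / 2 * (1 - d))) atTop atTop :=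
    (tendsto_rpow_atTop (by norm_num)).atTop_mul_const (mul_pos (by positivity) (by linarith))
  filter_upwards [eventually_gt_atTop (0 : ℝ), hlim.eventually (eventually_gt_nhds
      (show P d K - ε / 2 < P d K by linarith)), hbig.eventually_ge_atTop C] with β hβ h1 h2
  have h3 := spontMag_le K hn hβ hd0 (n := n) (β := β)
  have h4 : β ^ (3 / 2 : ℝ) * deficit n K β 0 d 0 ≤
      β ^ (3 / 2 : ℝ) * ((n : ℝ) / 2 - spontMag n β) :=
    mul_le_mul_of_nonneg_left (by linarith) (Real.rpow_nonneg hβ.le _)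
  refine le_trans ?_ h4
  have hs : β ^ (3 / 2 : ℝ) = Real.sqrt β ^ 3 := by
    rw [Real.sqrt_eq_rpow, ← Real.rpow_natCast, ← Real.rpow_mul hβ.le]
    norm_num
  rw [deficit, mul_min_of_nonneg _ _ (Real.rpow_nonneg hβ.le _)]
  refine le_min (by linarith) ?_
  have e : β ^ (3 / 2 : ℝ) * (d * ∑ l ∈ Finset.range K,
      Real.exp (-(((l : ℝ) + 1) * (β * 0))) *
        (max (gaussBox (((l : ℝ) + 1) * β * ((n : ℝ) / d)) - 0) 0) ^ 3) =
      d * ∑ l ∈ Finset.range K,
        (Real.sqrt β * gaussBox (((l : ℝ) + 1) * β * ((n : ℝ) / d))) ^ 3 := by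
    rw [hs, mul_left_comm, Finset.mul_sum]
    congr 1
    refine Finset.sum_congr rfl fun l _ => ?_
    rw [mul_zero, mul_zero, neg_zero, Real.exp_zero, one_mul, sub_zero,
      max_eq_left (gaussBox_nonneg _), mul_pow]
  rw [e]
  linarith

end Vale.Agent.P361
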