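import Vale.Agent.P361.Defs
import Vale.Agent.P361.Gibbs

/-!
Algebra of the spin operators on the cube, and the operator bounds that are used.
-/

open Matrix Finset
open scoped ComplexConjugate

namespace Vale.Agent.P361

variable {n N : ℕ}

/-- Abbreviation for the one-site lowering matrix. -/
noncomputable abbrev lowerMat (n : ℕ) : Matrix (Fin (n + 1)) (Fin (n + 1)) ℂ := (raiseMat n)ᵀ

theorem atSite_apply (x : Site N) (M : Matrix (Fin (n + 1)) (Fin (n + 1)) ℂ) (σ τ : Config n N) :
    atSite x M σ τ = if ∀ z, z ≠ x → σ z = τ z then M (σ x) (τ x) else 0 := rfl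

theorem atSite_transpose (x : Site N) (M : Matrix (Fin (n + 1)) (Fin (n + 1)) ℂ) :
    (atSite x M)ᵀ = atSite x Mᵀ := by
  ext σ τ
  simp only [transpose_apply, atSite_apply, eq_comm]

theorem atSite_conjTranspose (x : Site N) (M : Matrix (Fin (n + 1)) (Fin (n + 1)) ℂ) :
    (atSite x M)ᴴ = atSite x Mᴴ := by
  ext σ τ
  simp only [conjTranspose_apply, atSite_apply, eq_comm (a := τ _) (b := σ _)]
  split_ifs <;> simp

theorem atSite_add (x : Site N) (M M' : Matrix (Fin (n + 1)) (Fin (n + 1)) ℂ) :
    atSite x (M + M') = atSite x M + atSite x M' := by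
  ext σ τ
  simp only [Matrix.add_apply, atSite_apply]
  split_ifs <;> simp

theorem atSite_sub (x : Site N) (M M' : Matrix (Fin (n + 1)) (Fin (n + 1)) ℂ) :
    atSite x (M - M') = atSite x M - atSite x M' := by
  ext σ τ
  simp only [Matrix.sub_apply, atSite_apply]
  split_ifs <;> simp

theorem atSite_neg (x : Site N) (M : Matrix (Fin (n + 1)) (Fin (n + 1)) ℂ) :
    atSite x (-M) = -atSite x M := by
  ext σ τ
  simp only [Matrix.neg_apply, atSite_apply]
  split_ifs <;> simp

theorem atSite_smul (x : Site N) (c : ℂ) (M : Matrix (Fin (n + 1)) (Fin (n + 1)) ℂ) :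
    atSite x (c • M) = c • atSite x M := by
  ext σ τ
  simp only [Matrix.smul_apply, atSite_apply]
  split_ifs <;> simp

theorem atSite_diagonal (x : Site N) (f : Fin (n + 1) → ℂ) :
    atSite x (diagonal f) = diagonal fun σ : Config n N => f (σ x) := by
  ext σ τ
  rw [atSite_apply]
  by_cases h : σ = τ
  · subst h; simp
  · rw [diagonal_apply_ne _ h]
    split_ifs with hz
    · refine diagonal_apply_ne _ fun hx => h (funext fun z => ?_)
      by_cases hzx : z = x
      · subst hzx; exact hx
      · exact hz z hzx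
    · rfl

theorem atSite_mul (x : Site N) (A B : Matrix (Fin (n + 1)) (Fin (n + 1)) ℂ) :
    atSite x A * atSite x B = atSite x (A * B) := by
  ext σ τ
  simp only [mul_apply, atSite_apply]
  by_cases h : ∀ z, z ≠ x → σ z = τ z
  · rw [if_pos h]
    refine (Fintype.sum_of_injective (fun a => Function.update σ x a)
      (Function.update_injective σ x) _ _ ?_ ?_).symm
    · intro ρ hρ
      have : ¬ ∀ z, z ≠ x → σ z = ρ z := by
        intro hz
        exact hρ ⟨ρ x, funext fun z => by
          by_cases hzx : z = x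
          · subst hzx; simp
          · simp [hzx, hz z hzx]⟩
      rw [if_neg this, zero_mul]
    · intro a
      rw [if_pos fun z hz => by simp [hz], if_pos fun z hz => by simp [hz, h z hz]]
      simp
  · rw [if_neg h]
    refine Finset.sum_eq_zero fun ρ _ => ?_
    split_ifs with h1 h2
    · exact absurd (fun z hz => (h1 z hz).trans (h2 z hz)) h
    all_goals simp

theorem atSite_mul_apply {x y : Site N} (hxy : x ≠ y)
    (A B : Matrix (Fin (n + 1)) (Fin (n + 1)) ℂ) (σ τ : Config n N) :
    (atSite x A * atSite y B) σ τ =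
      if ∀ z, z ≠ x → z ≠ y → σ z = τ z then A (σ x) (τ x) * B (σ y) (τ y) else 0 := by
  rw [mul_apply, Fintype.sum_eq_single (Function.update σ x (τ x))]
  · simp only [atSite_apply, Function.update_self, Function.update_of_ne hxy.symm]
    rw [if_pos fun z hz => by simp [hz]]
    by_cases h : ∀ z, z ≠ x → z ≠ y → σ z = τ z
    · rw [if_pos h, if_pos]
      intro z hz
      by_cases hzx : z = x
      · subst hzx; simp
      · simp [hzx, h z hzx hz]
    · rw [if_neg h, if_neg, mul_zero]
      intro h'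
      refine h fun z hzx hzy => ?_
      simpa [hzx] using h' z hzy
  · intro ρ hρ
    simp only [atSite_apply]
    split_ifs with h1 h2
    · refine absurd (funext fun z => ?_) hρ
      by_cases hzx : z = x
      · subst hzx; simp [h2 z hxy]
      · simp [hzx, (h1 z hzx).symm]
    all_goals simp

theorem atSite_comm {x y : Site N} (hxy : x ≠ y) (A B : Matrix (Fin (n + 1)) (Fin (n + 1)) ℂ) :
    atSite x A * atSite y B = atSite y B * atSite x A := by
  ext σ τ
  rw [atSite_mul_apply hxy, atSite_mul_apply hxy.symm]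
  refine if_congr ⟨fun h z a b => h z b a, fun h z a b => h z b a⟩ ?_ rfl
  ring

theorem raiseMat_sq_arg_nonneg (b : Fin (n + 1)) : 0 ≤ (b : ℝ) * ((n : ℝ) + 1 - (b : ℝ)) := by
  have : ((b : ℕ) : ℝ) ≤ n := by exact_mod_cast b.is_le
  exact mul_nonneg (by positivity) (by linarith)

theorem raiseMat_conjTranspose (n : ℕ) : (raiseMat n)ᴴ = lowerMat n := by
  ext a b
  simp only [conjTranspose_apply, transpose_apply, raiseMat, of_apply]
  split_ifs <;> simp [Complex.conj_ofReal]

theorem lowerMat_conjTranspose (n : ℕ) : (lowerMat n)ᴴ = raiseMat n := by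
  rw [← raiseMat_conjTranspose, conjTranspose_conjTranspose]

theorem spin3_transpose (n : ℕ) : (spin3 n)ᵀ = spin3 n := diagonal_transpose _

theorem spin3_conjTranspose (n : ℕ) : (spin3 n)ᴴ = spin3 n := by
  rw [spin3, diagonal_conjTranspose]
  congr 1
  funext a
  simp

theorem raise_mul_lower (n : ℕ) : raiseMat n * lowerMat n =
    diagonal fun a : Fin (n + 1) => ((((a : ℕ) : ℝ) + 1) * ((n : ℝ) - (a : ℕ)) : ℂ) := by
  ext a b
  rw [mul_apply]
  simp only [transpose_apply, raiseMat, of_apply]
  by_cases hab : a = b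
  · subst hab
    rw [diagonal_apply_eq]
    rcases lt_or_eq_of_le a.is_le with ha | ha
    · rw [Fintype.sum_eq_single ⟨(a : ℕ) + 1, by omega⟩]
      · simp only [if_true]
        rw [← Complex.ofReal_mul,
          Real.mul_self_sqrt (raiseMat_sq_arg_nonneg (⟨(a : ℕ) + 1, by omega⟩ : Fin (n + 1)))]
        push_cast
        ring
      · intro c hc
        rw [if_neg fun h => hc (Fin.ext h.symm), zero_mul]
    · rw [Fintype.sum_eq_zero]
      · simp [ha]
      · intro c
        have := c.is_le
        rw [if_neg (by omega), zero_mul]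
  · rw [diagonal_apply_ne _ hab]
    refine Finset.sum_eq_zero fun c _ => ?_
    split_ifs with h1 h2
    · exact absurd (Fin.ext (by omega)) hab
    all_goals simp

theorem lower_mul_raise (n : ℕ) : lowerMat n * raiseMat n =
    diagonal fun a : Fin (n + 1) => (((a : ℕ) : ℝ) * ((n : ℝ) + 1 - (a : ℕ)) : ℂ) := by
  ext a b
  rw [mul_apply]
  simp only [transpose_apply, raiseMat, of_apply]
  by_cases hab : a = b
  · subst hab
    rw [diagonal_apply_eq]
    rcases Nat.eq_zero_or_pos (a : ℕ) with ha | ha
    · rw [Fintype.sum_eq_zero]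
      · simp [ha]
      · intro c
        rw [if_neg (by omega), zero_mul]
    · rw [Fintype.sum_eq_single ⟨(a : ℕ) - 1, by omega⟩]
      · have : (a : ℕ) - 1 + 1 = (a : ℕ) := by omega
        simp only [this, if_true]
        rw [← Complex.ofReal_mul, Real.mul_self_sqrt (raiseMat_sq_arg_nonneg _)]
        push_cast
        ring
      · intro c hc
        rw [if_neg fun h => hc (Fin.ext (by simp only; omega)), zero_mul]
  · rw [diagonal_apply_ne _ hab]
    refine Finset.sum_eq_zero fun c _ => ?_
    split_ifs with h1 h2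
    · exact absurd (Fin.ext (by omega)) hab
    all_goals simp

theorem raise_lower_comm (n : ℕ) :
    raiseMat n * lowerMat n - lowerMat n * raiseMat n = (2 : ℂ) • spin3 n := by
  rw [raise_mul_lower, lower_mul_raise, spin3, diagonal_sub, ← diagonal_smul]
  congr 1
  funext a
  simp only [Pi.smul_apply, smul_eq_mul]
  push_cast
  ring

theorem raise_spin3_comm (n : ℕ) :
    raiseMat n * spin3 n - spin3 n * raiseMat n = -raiseMat n := by
  ext a b
  rw [spin3, Matrix.sub_apply, mul_diagonal, diagonal_mul, Matrix.neg_apply]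
  simp only [raiseMat, of_apply]
  split_ifs with h
  · have hb : ((b : ℕ) : ℂ) = (a : ℕ) + 1 := by exact_mod_cast h.symm
    push_cast
    rw [hb]
    ring
  · ring

theorem lower_spin3_comm (n : ℕ) :
    lowerMat n * spin3 n - spin3 n * lowerMat n = lowerMat n := by
  have h := congrArg transpose (raise_spin3_comm n)
  simp only [transpose_sub, transpose_mul, transpose_neg, spin3_transpose] at h
  rw [← neg_sub, h, neg_neg]

theorem spinDot_eq (x y : Site N) : spinDot n x y =
    atSite x (spin3 n) * atSite y (spin3 n) +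
      (1 / 2 : ℂ) • (atSite x (raiseMat n) * atSite y (lowerMat n) +
        atSite x (lowerMat n) * atSite y (raiseMat n)) := by
  have hI : (-(Complex.I / 2)) * (-(Complex.I / 2)) = -(1 / 4 : ℂ) := by
    ring_nf; rw [Complex.I_sq]; ring
  unfold spinDot spin1 spin2
  simp only [atSite_smul, atSite_add, atSite_sub, smul_mul_smul_comm, hI,
    add_mul, mul_add, sub_mul, mul_sub]
  module

theorem spinDot_transpose {x y : Site N} (hxy : x ≠ y) :
    (spinDot n x y)ᵀ = spinDot n x y := by
  simp only [spinDot_eq, transpose_add, transpose_smul, transpose_mul, atSite_transpose,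
    spin3_transpose, transpose_transpose, atSite_comm hxy.symm]
  module

theorem spinDot_conjTranspose {x y : Site N} (hxy : x ≠ y) :
    (spinDot n x y)ᴴ = spinDot n x y := by
  simp only [spinDot_eq, conjTranspose_add, conjTranspose_smul, conjTranspose_mul,
    atSite_conjTranspose, spin3_conjTranspose, raiseMat_conjTranspose, lowerMat_conjTranspose,
    atSite_comm hxy.symm]
  have : star (1 / 2 : ℂ) = 1 / 2 := by simp
  rw [this]
  module

theorem adj_ne {x y : Site N} (h : Adj x y) : x ≠ y := by
  rintro rfl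
  simp [Adj] at h

theorem adj_symm {x y : Site N} (h : Adj x y) : Adj y x := by
  simp only [Adj] at h ⊢
  rw [← h]
  exact Finset.sum_congr rfl fun j _ => abs_sub_comm _ _

theorem hamiltonian_transpose : (hamiltonian n N)ᵀ = hamiltonian n N := by
  simp only [hamiltonian, transpose_smul, transpose_sum]
  congr 1
  refine Finset.sum_congr rfl fun x _ => Finset.sum_congr rfl fun y _ => ?_
  split_ifs with h
  · exact spinDot_transpose (adj_ne h)
  · simp

theorem hamiltonian_conjTranspose : (hamiltonian n N)ᴴ = hamiltonian n N := by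
  simp only [hamiltonian, conjTranspose_smul, conjTranspose_sum]
  have : star (-(1 / 2) : ℂ) = -(1 / 2) := by simp
  rw [this]
  congr 1
  refine Finset.sum_congr rfl fun x _ => Finset.sum_congr rfl fun y _ => ?_
  split_ifs with h
  · exact spinDot_conjTranspose (adj_ne h)
  · simp

theorem magnetization_transpose : (magnetization n N)ᵀ = magnetization n N := by
  simp [magnetization, transpose_sum, atSite_transpose, spin3_transpose]

theorem magnetization_conjTranspose : (magnetization n N)ᴴ = magnetization n N := by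
  simp [magnetization, conjTranspose_sum, atSite_conjTranspose, spin3_conjTranspose]

/-! ### Quadratic-form bounds -/

section forms

variable {ι : Type*} [Fintype ι]

theorem qf_add (X Y : Matrix ι ι ℂ) (v : ι → ℂ) : qf (X + Y) v = qf X v + qf Y v := by
  simp [qf, add_mulVec, dotProduct_add]

theorem qf_smul (a : ℝ) (X : Matrix ι ι ℂ) (v : ι → ℂ) : qf ((a : ℂ) • X) v = a * qf X v := by
  simp only [qf, smul_mulVec, dotProduct_smul, smul_eq_mul, Complex.re_ofReal_mul]

theorem qf_transpose_of_real (X : Matrix ι ι ℂ) (hX : Xᴴ = Xᵀ) (v : ι → ℂ) :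
    qf Xᵀ v = qf X v := by
  rw [← hX, qf_eq_sum, qf_eq_sum, Finset.sum_comm]
  refine Finset.sum_congr rfl fun i _ => Finset.sum_congr rfl fun j _ => ?_
  simp only [conjTranspose_apply, Complex.mul_re, Complex.mul_im, Complex.star_def,
    Complex.conj_re, Complex.conj_im]
  ring

/-- A Schur-type bound for a quadratic form. -/
theorem abs_qf_le (X : Matrix ι ι ℂ) (P Q : ι → ι → ℝ) (hP : ∀ i j, 0 ≤ P i j)
    (hQ : ∀ i j, 0 ≤ Q i j) (hX : ∀ i j, Complex.normSq (X i j) ≤ P i j * Q i j) (v : ι → ℂ) :
    |qf X v| ≤ (∑ i, Complex.normSq (v i) * ((∑ j, P i j) + ∑ j, Q j i)) / 2 := by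
  rw [qf_eq_sum]
  refine le_trans (Finset.abs_sum_le_sum_abs _ _) (le_trans (Finset.sum_le_sum
    fun i _ => Finset.abs_sum_le_sum_abs _ _) ?_)
  have hterm : ∀ i j, |(star (v i) * X i j * v j).re| ≤
      (Complex.normSq (v i) * P i j + Complex.normSq (v j) * Q i j) / 2 := by
    intro i j
    have h1 : (star (v i) * X i j * v j).re ^ 2 ≤
        Complex.normSq (v i) * P i j * (Complex.normSq (v j) * Q i j) := by
      calc (star (v i) * X i j * v j).re ^ 2 ≤ Complex.normSq (star (v i) * X i j * v j) := by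
            rw [Complex.normSq_apply]; nlinarith
        _ = Complex.normSq (v i) * Complex.normSq (X i j) * Complex.normSq (v j) := by simp
        _ ≤ Complex.normSq (v i) * (P i j * Q i j) * Complex.normSq (v j) := by
            gcongr
            · exact Complex.normSq_nonneg _
            · exact Complex.normSq_nonneg _
            · exact hX i j
        _ = _ := by ring
    refine abs_le_of_sq_le_sq (le_trans h1 ?_) (by
      have := Complex.normSq_nonneg (v i); have := Complex.normSq_nonneg (v j)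
      have := hP i j; have := hQ i j; positivity)
    nlinarith [sq_nonneg (Complex.normSq (v i) * P i j - Complex.normSq (v j) * Q i j)]
  refine le_trans (Finset.sum_le_sum fun i _ => Finset.sum_le_sum fun j _ => hterm i j) (le_of_eq ?_)
  simp only [mul_add, Finset.mul_sum, Finset.sum_add_distrib, add_div, Finset.sum_div]
  rw [Finset.sum_comm (f := fun i j => Complex.normSq (v j) * Q i j / 2)]

theorem qf_diagonal [DecidableEq ι] (f : ι → ℝ) (v : ι → ℂ) :
    qf (diagonal fun i => (f i : ℂ)) v = ∑ i, f i * Complex.normSq (v i) := by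
  simp only [qf, dotProduct, mulVec_diagonal, Complex.re_sum, Pi.star_apply]
  refine Finset.sum_congr rfl fun i _ => ?_
  simp [Complex.normSq_apply]
  ring

end forms

theorem sum_agree {x y : Site N} (hxy : x ≠ y) (σ : Config n N)
    (f : Fin (n + 1) → Fin (n + 1) → ℝ) :
    (∑ τ : Config n N, if ∀ z, z ≠ x → z ≠ y → σ z = τ z then f (τ x) (τ y) else 0)
      = ∑ p : Fin (n + 1) × Fin (n + 1), f p.1 p.2 := by
  refine (Fintype.sum_of_injective (fun p => Function.update (Function.update σ x p.1) y p.2)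
    ?_ _ _ ?_ ?_).symm
  · intro p q h
    have hx := congrFun h x
    have hy := congrFun h y
    simp [hxy] at hx hy
    exact Prod.ext hx hy
  · intro τ hτ
    refine if_neg fun h => hτ ⟨(τ x, τ y), funext fun z => ?_⟩
    by_cases hzy : z = y
    · subst hzy; simp
    · by_cases hzx : z = x
      · subst hzx; simp [hzy]
      · simp [hzy, hzx, h z hzx hzy]
  · intro p
    rw [if_pos fun z hzx hzy => by simp [hzx, hzy]]
    simp [hxy]

theorem qf_raise_lower_le {x y : Site N} (hxy : x ≠ y) (v : Config n N → ℂ) :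
    qf (atSite x (raiseMat n) * atSite y (lowerMat n)) v ≤
      (∑ σ : Config n N, Complex.normSq (v σ) * (((n : ℝ) - (σ x : ℕ)) * (σ y : ℕ) +
        ((σ x : ℕ) : ℝ) * ((n : ℝ) - (σ y : ℕ)))) / 2 := by
  set P1 : Fin (n + 1) → Fin (n + 1) → ℝ :=
    fun a b => if (a : ℕ) + 1 = (b : ℕ) then (n : ℝ) - (a : ℕ) else 0 with hP1
  set Q1 : Fin (n + 1) → Fin (n + 1) → ℝ :=
    fun a b => if (a : ℕ) + 1 = (b : ℕ) then ((b : ℕ) : ℝ) else 0 with hQ1
  have hnn : ∀ a : Fin (n + 1), (0 : ℝ) ≤ (n : ℝ) - (a : ℕ) := fun a =>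
    sub_nonneg.mpr (by exact_mod_cast a.is_le)
  have hP1n : ∀ a b, 0 ≤ P1 a b := fun a b => by
    simp only [hP1]; split_ifs; exacts [hnn a, le_rfl]
  have hQ1n : ∀ a b, 0 ≤ Q1 a b := fun a b => by
    simp only [hQ1]; split_ifs; exacts [Nat.cast_nonneg _, le_rfl]
  have hR : ∀ a b, Complex.normSq (raiseMat n a b) = P1 a b * Q1 a b := by
    intro a b
    simp only [raiseMat, of_apply, hP1, hQ1]
    split_ifs with h
    · rw [Complex.normSq_ofReal, Real.mul_self_sqrt (raiseMat_sq_arg_nonneg _)]
      have : ((b : ℕ) : ℝ) = (a : ℕ) + 1 := by exact_mod_cast h.symm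
      rw [this]; ring
    · simp
  have hrow : ∀ a, ∑ b, P1 a b = (n : ℝ) - (a : ℕ) := by
    intro a
    rcases lt_or_eq_of_le a.is_le with ha | ha
    · rw [Fintype.sum_eq_single ⟨(a : ℕ) + 1, by omega⟩]
      · simp [hP1]
      · intro c hc
        exact if_neg fun h => hc (Fin.ext h.symm)
    · rw [Fintype.sum_eq_zero]
      · simp [ha]
      · intro c
        have := c.is_le
        exact if_neg (by omega)
  have hcol : ∀ b, ∑ a, Q1 a b = ((b : ℕ) : ℝ) := by
    intro b
    rcases Nat.eq_zero_or_pos (b : ℕ) with hb | hb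
    · rw [Fintype.sum_eq_zero]
      · simp [hb]
      · intro c
        exact if_neg (by omega)
    · rw [Fintype.sum_eq_single ⟨(b : ℕ) - 1, by omega⟩]
      · have : (b : ℕ) - 1 + 1 = (b : ℕ) := by omega
        simp [hQ1, this]
      · intro c hc
        exact if_neg fun h => hc (Fin.ext (by simp only; omega))
  refine le_trans (le_abs_self _) (le_trans (abs_qf_le _
    (fun σ τ => if ∀ z, z ≠ x → z ≠ y → σ z = τ z then P1 (σ x) (τ x) * Q1 (τ y) (σ y) else 0)
    (fun σ τ => if ∀ z, z ≠ x → z ≠ y → σ z = τ z then Q1 (σ x) (τ x) * P1 (τ y) (σ y) else 0)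
    ?_ ?_ ?_ v) (le_of_eq ?_))
  · intro i j; split_ifs; exacts [mul_nonneg (hP1n _ _) (hQ1n _ _), le_rfl]
  · intro i j; split_ifs; exacts [mul_nonneg (hQ1n _ _) (hP1n _ _), le_rfl]
  · intro σ τ
    rw [atSite_mul_apply hxy]
    split_ifs
    · rw [map_mul, show lowerMat n (σ y) (τ y) = raiseMat n (τ y) (σ y) from rfl, hR, hR]
      exact le_of_eq (by ring)
    · simp
  congr 1
  refine Finset.sum_congr rfl fun σ _ => ?_
  congr 1
  congr 1
  · rw [sum_agree hxy σ (fun a b => P1 (σ x) a * Q1 b (σ y)), Fintype.sum_prod_type,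
      ← hrow (σ x), ← hcol (σ y), Finset.sum_mul_sum]
  · simp only [eq_comm (b := σ _)]
    rw [sum_agree hxy σ (fun a b => Q1 a (σ x) * P1 (σ y) b), Fintype.sum_prod_type,
      ← hcol (σ x), ← hrow (σ y), Finset.sum_mul_sum]

theorem qf_spinDot_le {x y : Site N} (hxy : x ≠ y) (v : Config n N → ℂ) :
    qf (spinDot n x y) v ≤ ((n : ℝ) / 2) ^ 2 * ∑ σ, Complex.normSq (v σ) := by
  have hreal : (atSite x (raiseMat n) * atSite y (lowerMat n))ᴴ
      = (atSite x (raiseMat n) * atSite y (lowerMat n))ᵀ := by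
    simp [atSite_conjTranspose, atSite_transpose, raiseMat_conjTranspose,
      lowerMat_conjTranspose]
  have hT : atSite x (lowerMat n) * atSite y (raiseMat n)
      = (atSite x (raiseMat n) * atSite y (lowerMat n))ᵀ := by
    rw [transpose_mul, atSite_transpose, atSite_transpose, transpose_transpose,
      atSite_comm hxy]
  have hz : qf (atSite x (spin3 n) * atSite y (spin3 n)) v = ∑ σ : Config n N,
      ((n : ℝ) / 2 - (σ x : ℕ)) * ((n : ℝ) / 2 - (σ y : ℕ)) * Complex.normSq (v σ) := by
    rw [spin3, atSite_diagonal, atSite_diagonal, diagonal_mul_diagonal]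
    simp only [← Complex.ofReal_mul]
    exact qf_diagonal _ v
  have hb := qf_raise_lower_le hxy v
  rw [spinDot_eq, qf_add, hz, show (1 / 2 : ℂ) = ((1 / 2 : ℝ) : ℂ) by push_cast; rfl, qf_smul,
    qf_add, hT, qf_transpose_of_real _ hreal]
  calc _ ≤ (∑ σ : Config n N, ((n : ℝ) / 2 - (σ x : ℕ)) * ((n : ℝ) / 2 - (σ y : ℕ)) *
          Complex.normSq (v σ)) + 1 / 2 * ((∑ σ : Config n N, Complex.normSq (v σ) *
            (((n : ℝ) - (σ x : ℕ)) * (σ y : ℕ) + ((σ x : ℕ) : ℝ) * ((n : ℝ) - (σ y : ℕ)))) / 2 +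
          (∑ σ : Config n N, Complex.normSq (v σ) *
            (((n : ℝ) - (σ x : ℕ)) * (σ y : ℕ) + ((σ x : ℕ) : ℝ) * ((n : ℝ) - (σ y : ℕ)))) / 2) := by
        gcongr
    _ = _ := by
        rw [add_halves]
        simp only [Finset.mul_sum, ← Finset.sum_add_distrib]
        refine Finset.sum_congr rfl fun σ _ => ?_
        ring

theorem qf_spin3_spin3_le {x y : Site N} (v : Config n N → ℂ) :
    qf (atSite x (spin3 n) * atSite y (spin3 n)) v
      ≤ ((n : ℝ) / 2) ^ 2 * ∑ σ, Complex.normSq (v σ) := by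
  rw [spin3, atSite_diagonal, atSite_diagonal, diagonal_mul_diagonal]
  simp only [← Complex.ofReal_mul]
  rw [qf_diagonal (fun σ : Config n N => ((n : ℝ) / 2 - (σ x : ℕ)) * ((n : ℝ) / 2 - (σ y : ℕ))),
    Finset.mul_sum]
  refine Finset.sum_le_sum fun σ _ => mul_le_mul_of_nonneg_right ?_ (Complex.normSq_nonneg _)
  have h1 : ((σ x : ℕ) : ℝ) ≤ n := by exact_mod_cast (σ x).is_le
  have h2 : ((σ y : ℕ) : ℝ) ≤ n := by exact_mod_cast (σ y).is_le
  have h3 : (0 : ℝ) ≤ (σ x : ℕ) := Nat.cast_nonneg _
  have h4 : (0 : ℝ) ≤ (σ y : ℕ) := Nat.cast_nonneg _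
  nlinarith [mul_nonneg h3 (sub_nonneg.mpr h2), mul_nonneg (sub_nonneg.mpr h1) h4]

end Vale.Agent.P361
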