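import Vale.Agent.P361.Bound

/-!
The lattice sum of magnon occupation numbers and its Gaussian lower bound.
-/

open Finset MeasureTheory Filter
open scoped Topology

namespace Vale.Agent.P361

/-- The Gaussian lower bound for the one-dimensional momentum average. -/
noncomputable def gaussBox (τ : ℝ) : ℝ :=
  2 * ∫ u in (0 : ℝ)..(1 / 2), Real.exp (-(2 * Real.pi ^ 2 * τ) * u ^ 2)

/-- The one-dimensional momentum average. -/
noncomputable def momAvg (N : ℕ) (τ : ℝ) : ℝ :=
  (∑ a : Fin (2 * N + 1), Real.exp (-τ * (1 - Real.cos (ang N a)))) / (2 * N + 1 : ℕ)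

theorem momAvg_nonneg (N : ℕ) (τ : ℝ) : 0 ≤ momAvg N τ :=
  div_nonneg (Finset.sum_nonneg fun _ _ => (Real.exp_pos _).le) (Nat.cast_nonneg _)

theorem gaussBox_le_momAvg (N : ℕ) {τ : ℝ} (hτ : 0 ≤ τ) :
    gaussBox τ - 2 / (2 * N + 1 : ℕ) ≤ momAvg N τ := by
  set L : ℝ := ((2 * N + 1 : ℕ) : ℝ) with hL
  have hL0 : 0 < L := by positivity
  set b : ℝ := 2 * Real.pi ^ 2 * τ / L ^ 2 with hb
  have hb0 : 0 ≤ b := by positivity
  set f : ℝ → ℝ := fun x => Real.exp (-b * x ^ 2) with hf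
  have hanti : ∀ {u v : ℝ}, 0 ≤ u → AntitoneOn f (Set.Icc u v) := by
    intro u v hu x hx y _ hxy
    refine Real.exp_le_exp.mpr ?_
    have : 0 ≤ x := hu.trans hx.1
    nlinarith [mul_le_mul_of_nonneg_left (pow_le_pow_left₀ this hxy 2) hb0]
  have hint : ∀ u v : ℝ, IntervalIntegrable f volume u v := fun u v =>
    (by fun_prop : Continuous f).intervalIntegrable u v
  have hcs : ∀ i : ℕ, f ((i : ℝ) + 1) ≤
      Real.exp (-τ * (1 - Real.cos (2 * Real.pi * ((i : ℝ) + 1) / L))) := by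
    intro i
    refine Real.exp_le_exp.mpr ?_
    have h := mul_le_mul_of_nonneg_left
      (sub_le_comm.1 (Real.one_sub_sq_div_two_le_cos (x := 2 * Real.pi * ((i : ℝ) + 1) / L))) hτ
    refine le_trans (le_of_eq ?_) (le_trans (neg_le_neg h) (le_of_eq (by ring)))
    simp only [hb]
    field_simp
  have hsum : ∑ i ∈ Finset.range N, 2 * f ((i : ℝ) + 1) ≤
      ∑ a : Fin (2 * N + 1), Real.exp (-τ * (1 - Real.cos (ang N a))) := by
    set g : ℕ → ℝ := fun a => Real.exp (-τ * (1 - Real.cos (2 * Real.pi * (a : ℝ) / L))) with hg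
    have hg0 : ∀ a, 0 ≤ g a := fun a => (Real.exp_pos _).le
    have e : ∑ a : Fin (2 * N + 1), Real.exp (-τ * (1 - Real.cos (ang N a)))
        = ∑ a ∈ Finset.range (2 * N + 1), g a := Fin.sum_univ_eq_sum_range g _
    rw [e, Finset.sum_range_succ', two_mul N, Finset.sum_range_add]
    have hr : ∀ i ∈ Finset.range N, g (N + (N - 1 - i) + 1) = g (i + 1) := by
      intro i hi
      have hi' := Finset.mem_range.1 hi
      simp only [hg]
      have e1 : ((N + (N - 1 - i) + 1 : ℕ) : ℝ) = L - ((i + 1 : ℕ) : ℝ) := by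
        rw [hL]
        have : ((N + (N - 1 - i) + 1 : ℕ) : ℝ) + ((i + 1 : ℕ) : ℝ) = ((2 * N + 1 : ℕ) : ℝ) := by
          exact_mod_cast (show N + (N - 1 - i) + 1 + (i + 1) = 2 * N + 1 by omega)
        linarith
      rw [e1, show 2 * Real.pi * (L - ((i + 1 : ℕ) : ℝ)) / L
        = 2 * Real.pi - 2 * Real.pi * ((i + 1 : ℕ) : ℝ) / L by field_simp, Real.cos_two_pi_sub]
    have hrefl := Finset.sum_range_reflect (fun j => g (N + j + 1)) N
    rw [← hrefl, Finset.sum_congr rfl hr, ← Finset.sum_add_distrib]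
    refine le_trans (Finset.sum_le_sum fun i _ => ?_) (le_add_of_nonneg_right (hg0 0))
    have := hcs i
    simp only [hg, Nat.cast_add, Nat.cast_one]
    linarith
  have h1 : ∫ x in (0 : ℝ)..((N : ℝ) + 1), f x ≤ 1 + ∑ i ∈ Finset.range N, f ((i : ℝ) + 1) := by
    have h := AntitoneOn.integral_le_sum (f := f) (x₀ := 0) (a := N + 1) (hanti le_rfl)
    rw [Finset.sum_range_succ'] at h
    simp only [zero_add, Nat.cast_add, Nat.cast_one, Nat.cast_zero] at h
    have h0 : f 0 = 1 := by simp [hf]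
    rw [h0] at h
    linarith
  have h2 : ∫ x in (0 : ℝ)..(L / 2), f x ≤ ∫ x in (0 : ℝ)..((N : ℝ) + 1), f x := by
    have hle : L / 2 ≤ (N : ℝ) + 1 := by rw [hL]; push_cast; linarith
    rw [← intervalIntegral.integral_add_adjacent_intervals (hint 0 (L / 2)) (hint _ ((N : ℝ) + 1))]
    exact le_add_of_nonneg_right
      (intervalIntegral.integral_nonneg hle fun x _ => (Real.exp_pos _).le)
  have h3 : gaussBox τ = 2 * (∫ x in (0 : ℝ)..(L / 2), f x) / L := by
    have e := intervalIntegral.mul_integral_comp_mul_left (f := f) (a := (0 : ℝ)) (b := 1 / 2) L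
    rw [mul_zero, mul_one_div] at e
    have e2 : ∀ u, f (L * u) = Real.exp (-(2 * Real.pi ^ 2 * τ) * u ^ 2) := by
      intro u
      simp only [hf, hb]
      congr 1
      field_simp
    simp only [e2] at e
    rw [← e, gaussBox]
    field_simp
  rw [h3, momAvg, ← hL, ← sub_div]
  refine (div_le_div_iff_of_pos_right hL0).2 ?_
  rw [← Finset.mul_sum] at hsum
  linarith

theorem gaussBox_nonneg (τ : ℝ) : 0 ≤ gaussBox τ :=
  mul_nonneg zero_le_two
    (intervalIntegral.integral_nonneg (by norm_num) fun _ _ => (Real.exp_pos _).le)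

theorem tendsto_sqrt_mul_gaussBox :
    Tendsto (fun τ => Real.sqrt τ * gaussBox τ) atTop (𝓝 (1 / Real.sqrt (2 * Real.pi))) := by
  have hb : (0 : ℝ) < 2 * Real.pi ^ 2 := by positivity
  set f : ℝ → ℝ := fun v => Real.exp (-(2 * Real.pi ^ 2) * v ^ 2) with hf
  have h1 : Tendsto (fun τ : ℝ => ∫ v in (0 : ℝ)..(Real.sqrt τ * (1 / 2)), f v) atTop
      (𝓝 (∫ v in Set.Ioi (0 : ℝ), f v)) :=
    intervalIntegral_tendsto_integral_Ioi 0 (integrable_exp_neg_mul_sq hb).integrableOn
      (Real.tendsto_sqrt_atTop.atTop_mul_const (by norm_num))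
  rw [integral_gaussian_Ioi] at h1
  have h2 := h1.const_mul 2
  have e : 2 * (Real.sqrt (Real.pi / (2 * Real.pi ^ 2)) / 2) = 1 / Real.sqrt (2 * Real.pi) := by
    rw [show Real.pi / (2 * Real.pi ^ 2) = 1 / (2 * Real.pi) by field_simp, one_div (2 * Real.pi),
      Real.sqrt_inv]
    ring
  rw [e] at h2
  refine h2.congr' ?_
  filter_upwards [eventually_gt_atTop (0 : ℝ)] with τ hτ
  have e2 := intervalIntegral.mul_integral_comp_mul_left (f := f) (a := (0 : ℝ)) (b := 1 / 2)
    (Real.sqrt τ)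
  rw [mul_zero] at e2
  have e3 : ∀ u, f (Real.sqrt τ * u) = Real.exp (-(2 * Real.pi ^ 2 * τ) * u ^ 2) := by
    intro u
    simp only [hf, mul_pow, Real.sq_sqrt hτ.le]
    ring_nf
  simp only [e3] at e2
  rw [← e2, gaussBox]
  ring

theorem geom_le_bose (K : ℕ) {t : ℝ} (ht : 0 < t) :
    ∑ l ∈ Finset.range K, Real.exp (-(((l : ℝ) + 1) * t)) ≤ 1 / (Real.exp t - 1) := by
  rw [le_div_iff₀ (sub_pos.mpr (Real.one_lt_exp_iff.mpr ht))]
  have key : (∑ l ∈ Finset.range K, Real.exp (-(((l : ℝ) + 1) * t))) * (Real.exp t - 1)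
      = 1 - Real.exp (-((K : ℝ) * t)) := by
    induction K with
    | zero => simp
    | succ K ih =>
        rw [Finset.sum_range_succ, add_mul, ih, mul_sub, ← Real.exp_add]
        push_cast
        ring_nf
  rw [key]
  linarith [Real.exp_pos (-((K : ℝ) * t))]

theorem boseSum_ge (K N : ℕ) {β h c : ℝ} (hβ : 0 < β) (hh : 0 < h) (hc : 0 ≤ c) :
    ∑ l ∈ Finset.range K, Real.exp (-(((l : ℝ) + 1) * (β * h))) *
        (max (gaussBox (((l : ℝ) + 1) * β * c) - 2 / (2 * N + 1 : ℕ)) 0) ^ 3 ≤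
      (∑ k : Site N, 1 / (Real.exp (β * (c * disp k + h)) - 1)) / Fintype.card (Site N) := by
  have hV : (Fintype.card (Site N) : ℝ) = ((2 * N + 1 : ℕ) : ℝ) ^ 3 := by simp
  have e : ∀ l : ℕ, Real.exp (-(((l : ℝ) + 1) * (β * h))) *
      momAvg N (((l : ℝ) + 1) * β * c) ^ 3 =
      (∑ k : Site N, Real.exp (-(((l : ℝ) + 1) * (β * (c * disp k + h))))) /
        Fintype.card (Site N) := by
    intro l
    have : ∀ k : Site N, Real.exp (-(((l : ℝ) + 1) * (β * (c * disp k + h)))) =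
        Real.exp (-(((l : ℝ) + 1) * (β * h))) *
          ∏ j, Real.exp (-(((l : ℝ) + 1) * β * c) * (1 - Real.cos (ang N (k j)))) := by
      intro k
      rw [← Real.exp_sum, ← Real.exp_add, disp, Finset.mul_sum]
      congr 1
      simp only [mul_add, Finset.mul_sum, neg_add, Finset.sum_neg_distrib, neg_mul]
      rw [add_comm]
      congr 1
      congr 1
      exact Finset.sum_congr rfl fun j _ => by ring
    simp only [this, ← Finset.mul_sum]
    rw [← Fintype.prod_sum
      (fun _ a => Real.exp (-(((l : ℝ) + 1) * β * c) * (1 - Real.cos (ang N a)))),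
      Finset.prod_const, Finset.card_univ, Fintype.card_fin, momAvg, div_pow, hV, mul_div_assoc]
  refine le_trans (Finset.sum_le_sum (g := fun l : ℕ =>
    Real.exp (-(((l : ℝ) + 1) * (β * h))) * momAvg N (((l : ℝ) + 1) * β * c) ^ 3)
    fun l _ => mul_le_mul_of_nonneg_left
      (pow_le_pow_left₀ (le_max_right _ _)
        (max_le (gaussBox_le_momAvg N (by positivity)) (momAvg_nonneg _ _)) 3)
      (Real.exp_pos _).le) ?_
  simp only [e, ← Finset.sum_div]
  refine (div_le_div_iff_of_pos_right (by exact_mod_cast card_site_pos (N := N))).2 ?_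
  rw [Finset.sum_comm]
  exact Finset.sum_le_sum fun k _ =>
    geom_le_bose K (mul_pos hβ (add_pos_of_nonneg_of_pos (mul_nonneg hc (disp_nonneg k)) hh))

end Vale.Agent.P361
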